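import Vale.Agent.P155.NT802.Sep
import Vale.Agent.P155.H878.Orb

/-!
# P155, NT, block E: excursions of the path into a box (deterministic part)

`ent k`, `exi (k+1)`: beginning and end of the `k`-th excursion (`k = 0, 1, …`) of the path
`g 0, g 1, …, g N` : first entry into `box q r0` after the last exit from `box q R`.
-/

namespace Vale.Agent.P155.NT802

open Vale.Agent.P155 T802 T905 J Finset NT Function

/-- first index `≥ i0` with `P`, at most `N` (if `i0 ≤ N`) -/
noncomputable def fst (N : ℕ) (P : ℕ → Prop) (i0 : ℕ) : ℕ := sInf {i | i0 ≤ i ∧ (P i ∨ N ≤ i)}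

theorem fst_mem (N : ℕ) (P : ℕ → Prop) (i0 : ℕ) :
    i0 ≤ fst N P i0 ∧ (P (fst N P i0) ∨ N ≤ fst N P i0) :=
  Nat.sInf_mem (s := {i | i0 ≤ i ∧ (P i ∨ N ≤ i)}) ⟨max i0 N, le_max_left _ _, Or.inr (le_max_right _ _)⟩

theorem fst_min {N : ℕ} {P : ℕ → Prop} {i0 i : ℕ} (h0 : i0 ≤ i) (h : P i ∨ N ≤ i) :
    fst N P i0 ≤ i := Nat.sInf_le ⟨h0, h⟩

theorem fst_le {N : ℕ} {P : ℕ → Prop} {i0 : ℕ} (h : i0 ≤ N) : fst N P i0 ≤ N :=
  fst_min h (Or.inr le_rfl)

theorem not_of_lt {N : ℕ} {P : ℕ → Prop} {i0 i : ℕ} (h0 : i0 ≤ i) (h : i < fst N P i0) :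
    ¬ P i ∧ i < N := by
  constructor
  · intro hP
    exact absurd (fst_min (N := N) h0 (Or.inl hP)) (by omega)
  · by_contra hN
    exact absurd (fst_min (P := P) (N := N) h0 (Or.inr (not_lt.1 hN))) (by omega)

section

variable (N : ℕ) (g : ℕ → Pt) (q : Pt) (r0 R : ℕ)

/-- end of the `k`-th excursion (`exi 0 = 0`) -/
noncomputable def exi : ℕ → ℕ
  | 0 => 0
  | k + 1 => fst N (fun i => g i ∉ box q R) (fst N (fun i => g i ∈ box q r0) (exi k))

/-- beginning of the excursion number `k` -/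
noncomputable def ent (k : ℕ) : ℕ := fst N (fun i => g i ∈ box q r0) (exi N g q r0 R k)

end

section

variable {N : ℕ} {g : ℕ → Pt} {q : Pt} {r0 R : ℕ}

theorem exi_succ (k : ℕ) : exi N g q r0 R (k + 1) =
    fst N (fun i => g i ∉ box q R) (ent N g q r0 R k) := rfl

theorem exi_le_ent (k : ℕ) : exi N g q r0 R k ≤ ent N g q r0 R k := (fst_mem _ _ _).1

theorem ent_le_exi (k : ℕ) : ent N g q r0 R k ≤ exi N g q r0 R (k + 1) := (fst_mem _ _ _).1

theorem exi_le (k : ℕ) : exi N g q r0 R k ≤ N := by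
  induction k with
  | zero => exact Nat.zero_le _
  | succ k ih => exact fst_le (fst_le ih)

theorem ent_le (k : ℕ) : ent N g q r0 R k ≤ N := fst_le (exi_le k)

theorem exi_mono {k l : ℕ} (h : k ≤ l) : exi N g q r0 R k ≤ exi N g q r0 R l := by
  induction l, h using Nat.le_induction with
  | base => exact le_rfl
  | succ l _ ih => exact ih.trans ((exi_le_ent l).trans (ent_le_exi l))

theorem ent_mono {k l : ℕ} (h : k ≤ l) : ent N g q r0 R k ≤ ent N g q r0 R l := by
  induction l, h using Nat.le_induction with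
  | base => exact le_rfl
  | succ l _ ih => exact ih.trans ((ent_le_exi l).trans (exi_le_ent (l + 1)))

/-- outside of the excursions the path does not visit the small box -/
theorem out_box {k i : ℕ} (h1 : exi N g q r0 R k ≤ i) (h2 : i < ent N g q r0 R k) :
    g i ∉ box q r0 := (not_of_lt h1 h2).1

/-- during an excursion the path is in the large box -/
theorem in_box {k i : ℕ} (h1 : ent N g q r0 R k ≤ i) (h2 : i < exi N g q r0 R (k + 1)) :
    g i ∈ box q R := not_not.1 (not_of_lt h1 h2).1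

theorem ent_in {k : ℕ} (h : ent N g q r0 R k < N) : g (ent N g q r0 R k) ∈ box q r0 := by
  rcases (fst_mem N (fun i => g i ∈ box q r0) (exi N g q r0 R k)).2 with h1 | h1
  · exact h1
  · exact absurd h1 (by unfold ent at h; omega)

theorem exi_out {k : ℕ} (h : exi N g q r0 R (k + 1) < N) : g (exi N g q r0 R (k + 1)) ∉ box q R := by
  rcases (fst_mem N (fun i => g i ∉ box q R) (ent N g q r0 R k)).2 with h1 | h1
  · exact h1
  · exact absurd h1 (by rw [exi_succ] at h; omega)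

theorem ent_lt_exi (hr : r0 ≤ R) {k : ℕ} (h : ent N g q r0 R k < N) :
    ent N g q r0 R k < exi N g q r0 R (k + 1) := by
  rcases Nat.lt_or_ge (ent N g q r0 R k) (exi N g q r0 R (k + 1)) with h1 | h1
  · exact h1
  · have h2 : exi N g q r0 R (k + 1) = ent N g q r0 R k := le_antisymm h1 (ent_le_exi k)
    have h3 := exi_out (k := k) (N := N) (g := g) (q := q) (r0 := r0) (R := R) (by omega)
    rw [h2] at h3
    exact absurd (box_mono hr (ent_in h)) h3

theorem exi_ge (hr : r0 ≤ R) (k : ℕ) : min k N ≤ exi N g q r0 R k := by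
  induction k with
  | zero => simp
  | succ k ih =>
    rcases Nat.lt_or_ge (ent N g q r0 R k) N with h | h
    · have h1 := ent_lt_exi hr h
      have h2 := exi_le_ent (N := N) (g := g) (q := q) (r0 := r0) (R := R) k
      omega
    · have h1 := ent_le_exi (N := N) (g := g) (q := q) (r0 := r0) (R := R) k
      omega

/-- every visit of the small box takes place during an excursion -/
theorem cover (hr : r0 ≤ R) {i : ℕ} (hi : i < N) (h : g i ∈ box q r0) :
    ∃ k, ent N g q r0 R k ≤ i ∧ i < exi N g q r0 R (k + 1) := by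
  classical
  have hex : ∃ k, i < exi N g q r0 R k := ⟨i + 1, by
    have := exi_ge (N := N) (g := g) (q := q) hr (i + 1)
    omega⟩
  have h1 := Nat.find_spec hex
  have h0 : Nat.find hex ≠ 0 := by
    intro h2
    rw [h2] at h1
    exact absurd h1 (by show ¬ i < 0; omega)
  obtain ⟨k, hk⟩ := Nat.exists_eq_succ_of_ne_zero h0
  have h2 : ¬ i < exi N g q r0 R k := Nat.find_min hex (by omega)
  rw [hk] at h1
  refine ⟨k, ?_, h1⟩
  by_contra h3
  exact out_box (not_lt.1 h2) (not_le.1 h3) h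

/-- a point which is separated from the current point by a visit of the outside of the large box
was explored before the current excursion -/
theorem before {k u w u' : ℕ} (h1 : u' < exi N g q r0 R (k + 1)) (h2 : u ≤ w) (h3 : w ≤ u')
    (h4 : g w ∉ box q R) : u < ent N g q r0 R k ∨ (u = w ∧ g u ∉ box q R) := by
  rcases Nat.lt_or_ge w (ent N g q r0 R k) with h5 | h5
  · left; omega
  · exact absurd (in_box h5 (lt_of_le_of_lt h3 h1)) h4

end

/-- **TOUCH**: at some time of `[e, f)` the tip is in `box q r'`, at distance at most `h` of a face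
which is not free (with respect to the explored set `E0`). -/
def Touching (T : Temp) (E0 : Set Pt) (g : ℕ → Pt) (e f : ℕ) (q : Pt) (r' h : ℕ) : Prop :=
  ∃ i, e ≤ i ∧ i < f ∧ g i ∈ box q r' ∧ ∃ a, a ∉ OE T E0 ∧ dn (g i) a ≤ h

theorem not_free {T : Temp} {E : Set Pt} {w : Pt} (h : w ∈ E) : w ∉ OE T E := by
  rintro ⟨-, h2⟩
  exact h2 ⟨w, by simp [corners], h⟩

section

variable {T : Temp} {N : ℕ} {g : ℕ → Pt} {q : Pt} {r0 R r' h : ℕ} {E : ℕ → Set Pt}

/-- the tip near a face which is not free before the path starts (outside of the polygon, older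
loops) : touching -/
theorem touch_old (hr : r0 ≤ R) (hr' : r' ≤ r0) {E0 : Set Pt} (hE : ∀ k, E0 ⊆ E k) {u : ℕ}
    (hu : u < N) (hub : g u ∈ box q r') {a : Pt} (ha : a ∉ OE T E0) (hd : dn (g u) a ≤ h) :
    ∃ k, ent N g q r0 R k ≤ u ∧
      Touching T (E k) g (ent N g q r0 R k) (exi N g q r0 R (k + 1)) q r' h := by
  obtain ⟨k, k1, k2⟩ := cover hr hu (box_mono hr' hub)
  exact ⟨k, k1, u, k1, k2, hub, a, fun h3 => ha (OE_anti (hE k) h3), hd⟩

/-- a pinch of the path : touching -/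
theorem touch_pair (hr : r0 ≤ R) (hr' : r' ≤ r0)
    (hE : ∀ k, ∀ j ≤ ent N g q r0 R k, g j ∈ E k) {u w u' : ℕ} (hu' : u' < N) (h2 : u ≤ w)
    (h3 : w ≤ u') (hub : g u ∈ box q R) (hub' : g u' ∈ box q r') (hw : g w ∉ box q R)
    (hd : dn (g u') (g u) ≤ h) :
    ∃ k, ent N g q r0 R k ≤ u' ∧
      Touching T (E k) g (ent N g q r0 R k) (exi N g q r0 R (k + 1)) q r' h := by
  obtain ⟨k, k1, k2⟩ := cover hr hu' (box_mono hr' hub')
  rcases before k2 h2 h3 hw with h4 | ⟨_, h4⟩
  · exact ⟨k, k1, u', k1, k2, hub', g u, not_free (hE k u h4.le), hd⟩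
  · exact absurd hub h4

end

/-! ### the path of a loop -/

section

variable {V : Finset Pt} {ω : Conf} {s : Pt}

theorem pre_iter (hω : ω ∈ DD V) (hs : s ∈ V) {i : ℕ} (hi : i ≤ (comp ω s).ncard) :
    (SW.pre ω)^[i] s = (SW.suc ω)^[(comp ω s).ncard - i] s := by
  induction i with
  | zero => rw [Nat.sub_zero, Q1.iter_per hω hs]; rfl
  | succ i ih =>
    rw [iterate_succ_apply', ih (by omega)]
    obtain ⟨j, hj⟩ : ∃ j, (comp ω s).ncard - i = j + 1 := ⟨(comp ω s).ncard - i - 1, by omega⟩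
    rw [hj, iterate_succ_apply', show (comp ω s).ncard - (i + 1) = j by omega]
    have h1 := mem_PM.1 (mem_product.1 hω).1
    have h2 := mem_PM.1 (mem_product.1 hω).2
    apply SW.pre_suc h1 h2
    intro h3
    have h4 := Q1.suc_adj hω (Q1.iter_mem hω hs j)
    rw [h3] at h4
    exact absurd h4 (by simp [Adj])

/-- the path follows the loop in one of the two directions -/
theorem go_cases (hω : ω ∈ DD V) (hs : s ∈ V) :
    (∀ i, go ω s i = (SW.suc ω)^[i] s) ∨
      (∀ i ≤ (comp ω s).ncard, go ω s i = (SW.suc ω)^[(comp ω s).ncard - i] s) := by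
  classical
  by_cases h : SW.suc ω s = (s.1 + 1, s.2) ∨
      (SW.pre ω s ≠ (s.1 + 1, s.2) ∧ SW.suc ω s = (s.1, s.2 + 1))
  · left
    intro i
    unfold go
    rw [if_pos h]
  · right
    intro i hi
    unfold go
    rw [if_neg h]
    exact pre_iter hω hs hi

theorem go_mem (hω : ω ∈ DD V) (hs : s ∈ V) {v : Pt} (hv : v ∈ comp ω s) :
    ∃ u < (comp ω s).ncard, go ω s u = v := by
  obtain ⟨a, ha, rfl⟩ := Q1.exists_iter hω hs hv
  rcases go_cases hω hs with h | h
  · exact ⟨a, ha, h a⟩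
  · rcases Nat.eq_zero_or_pos a with rfl | h0
    · refine ⟨0, ha, ?_⟩
      rw [h 0 (Nat.zero_le _), Nat.sub_zero, Q1.iter_per hω hs]
      rfl
    · refine ⟨(comp ω s).ncard - a, by omega, ?_⟩
      rw [h _ (by omega)]
      congr 1
      omega

/-- **a pinch of the loop is a pinch of the path** -/
theorem pinch_path (hω : ω ∈ DD V) (hs : s ∈ V) {P : Pt → Prop} (hsP : P s) {v : Pt}
    (hv : v ∈ comp ω s) (hvP : ¬ P v) {m : ℕ} (hm : m ≤ (comp ω s).ncard)
    (hvP' : ¬ P ((SW.suc ω)^[m] v)) (h1 : ∃ j ≤ m, P ((SW.suc ω)^[j] v))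
    (h2 : ∃ j ≤ (comp ω s).ncard - m, P ((SW.suc ω)^[j] ((SW.suc ω)^[m] v))) :
    ∃ u w u', u ≤ w ∧ w ≤ u' ∧ u' < (comp ω s).ncard ∧ P (go ω s w) ∧
      ((go ω s u = v ∧ go ω s u' = (SW.suc ω)^[m] v) ∨
        (go ω s u = (SW.suc ω)^[m] v ∧ go ω s u' = v)) := by
  set N := (comp ω s).ncard with hN
  obtain ⟨a, ha, rfl⟩ := Q1.exists_iter hω hs hv
  -- in terms of the successor
  have key : ∃ u w u', u ≤ w ∧ w ≤ u' ∧ u' < N ∧ P ((SW.suc ω)^[w] s) ∧
      (((SW.suc ω)^[u] s = (SW.suc ω)^[a] s ∧ (SW.suc ω)^[u'] s = (SW.suc ω)^[m] ((SW.suc ω)^[a] s)) ∨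
        ((SW.suc ω)^[u] s = (SW.suc ω)^[m] ((SW.suc ω)^[a] s) ∧
          (SW.suc ω)^[u'] s = (SW.suc ω)^[a] s)) := by
    rcases Nat.lt_or_ge (a + m) N with h | h
    · obtain ⟨j, hj, hjP⟩ := h1
      refine ⟨a, j + a, m + a, by omega, by omega, by omega, ?_, Or.inl ⟨rfl, ?_⟩⟩
      · rw [iterate_add_apply]; exact hjP
      · rw [iterate_add_apply]
    · obtain ⟨j, hj, hjP⟩ := h2
      obtain ⟨b, hb⟩ : ∃ b, m + a = b + N := ⟨m + a - N, by omega⟩
      have e : (SW.suc ω)^[m] ((SW.suc ω)^[a] s) = (SW.suc ω)^[b] s := by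
        rw [← iterate_add_apply, hb, iterate_add_apply, hN, Q1.iter_per hω hs]
      rw [e] at hjP ⊢
      refine ⟨b, j + b, a, by omega, by omega, ha, ?_, Or.inr ⟨rfl, rfl⟩⟩
      rw [iterate_add_apply]; exact hjP
  obtain ⟨u, w, u', k1, k2, k3, k4, k5⟩ := key
  rcases go_cases hω hs with h | h
  · refine ⟨u, w, u', k1, k2, k3, by rw [h]; exact k4, ?_⟩
    rw [h u, h u']
    exact k5
  · have hu0 : 1 ≤ u := by
      by_contra h0
      have h0' : u = 0 := by omega
      subst h0'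
      rcases k5 with ⟨k6, _⟩ | ⟨k6, _⟩
      · exact hvP (by rw [← k6]; exact hsP)
      · exact hvP' (by rw [← k6]; exact hsP)
    have e : ∀ x, 1 ≤ x → x < N → go ω s (N - x) = (SW.suc ω)^[x] s := by
      intro x h1 h2
      rw [h (N - x) (by omega)]
      congr 1
      omega
    refine ⟨N - u', N - w, N - u, by omega, by omega, by omega, ?_, ?_⟩
    · rw [e w (by omega) (by omega)]; exact k4
    · rw [e u' (by omega) (by omega), e u hu0 (by omega)]
      rcases k5 with ⟨k6, k7⟩ | ⟨k6, k7⟩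
      · exact Or.inr ⟨k7, k6⟩
      · exact Or.inl ⟨k7, k6⟩

end

end Vale.Agent.P155.NT802
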