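import Vale.Agent.P155.NT802.Exc
import Vale.Agent.P155.A801.NTF
import Vale.Agent.P155.H904.Dist

/-!
# P155, NT, block E: from `TouchIn` to a touching excursion

`Walk`: the abstract properties of the exploration with one global index (`tm n` = `n`-th time).
-/

namespace Vale.Agent.P155.NT802

open Vale.Agent.P155 T802 T905 J Finset NT Function

/-- the point of the walk at the time `(t, i)` -/
noncomputable def pt' (xS : ℤ) (ω : Conf) (x : ℤ × ℕ) : Pt := go ω (xS, x.1) x.2

/-- the explored set at the time `(t, i)` -/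
noncomputable def Ex' (xS : ℤ) (ω : Conf) (x : ℤ × ℕ) : Set Pt := Eti xS ω x.1 x.2

/-- properties of the global exploration -/
structure Walk (V : Finset Pt) (xS : ℤ) (ω : Conf) (tm : ℕ → ℤ × ℕ) (M : ℕ) : Prop where
  valid : ∀ n < M, (xS, (tm n).1) ∈ V ∧ (xS, (tm n).1) ∉ Et xS ω (tm n).1 ∧
    (tm n).2 < (comp ω (xS, (tm n).1)).ncard
  inj : ∀ i < M, ∀ j < M, pt' xS ω (tm i) = pt' xS ω (tm j) → i = j
  zero : (tm 0).2 = 0
  step : ∀ n, n + 1 < M → (tm (n + 1)).2 = 0 ∨
    ((tm (n + 1)).1 = (tm n).1 ∧ (tm (n + 1)).2 = (tm n).2 + 1)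
  all : ∀ (t : ℤ) (i : ℕ), (xS, t) ∈ V → (xS, t) ∉ Et xS ω t → i < (comp ω (xS, t)).ncard →
    ∃ n < M, tm n = (t, i)
  expl : ∀ n < M, ∀ i ≤ n, pt' xS ω (tm i) ∈ Ex' xS ω (tm n)

section

variable {V : Finset Pt} {xS : ℤ} {ω : Conf} {tm : ℕ → ℤ × ℕ} {M : ℕ} {q : Pt}

theorem go0 (ω : Conf) (s : Pt) : go ω s 0 = s := by
  unfold go
  split_ifs <;> rfl

/-- a start is on the line -/
theorem start_line {n : ℕ} (h : (tm n).2 = 0) : (pt' xS ω (tm n)).1 = xS := by
  unfold pt'
  rw [h, go0]

/-- the whole loop of a new point of the line is run through in consecutive steps -/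
theorem Walk.run (W : Walk V xS ω tm M) {t : ℤ} (ht : (xS, t) ∈ V)
    (hs : (xS, t) ∉ Et xS ω t) : ∃ n0, ∀ i < (comp ω (xS, t)).ncard,
      n0 + i < M ∧ tm (n0 + i) = (t, i) := by
  by_cases h0 : 0 < (comp ω (xS, t)).ncard
  · obtain ⟨n0, hn0, e0⟩ := W.all t 0 ht hs h0
    refine ⟨n0, fun i => ?_⟩
    induction i with
    | zero => intro _; exact ⟨hn0, e0⟩
    | succ i ih =>
      intro hi
      obtain ⟨k1, k2⟩ := ih (by omega)
      obtain ⟨n, hn, e⟩ := W.all t (i + 1) ht hs hi
      have hn1 : n ≠ 0 := by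
        rintro rfl
        have := W.zero
        rw [e] at this
        exact absurd this (by simp)
      obtain ⟨m, rfl⟩ := Nat.exists_eq_succ_of_ne_zero hn1
      rcases W.step m hn with h1 | ⟨h1, h2⟩
      · rw [Nat.succ_eq_add_one] at e
        rw [e] at h1
        exact absurd h1 (by simp)
      · rw [Nat.succ_eq_add_one] at e hn
        rw [e] at h1 h2
        have e2 : tm m = (t, i) := Prod.ext h1.symm (by simp only at h2 ⊢; omega)
        have e3 : m = n0 + i := by
          apply W.inj m (by omega) (n0 + i) k1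
          rw [e2, k2]
        subst e3
        exact ⟨hn, e⟩
  · exact ⟨0, fun i hi => absurd hi (by omega)⟩

/-- without a start, consecutive times belong to one loop -/
theorem Walk.seg (W : Walk V xS ω tm M) {l : ℕ} (m : ℕ) (hM : l + m < M)
    (h : ∀ i, l < i → i ≤ l + m → (tm i).2 ≠ 0) :
    ∀ i ≤ m, tm (l + i) = ((tm l).1, (tm l).2 + i) := by
  intro i
  induction i with
  | zero => intro _; rfl
  | succ i ih =>
    intro hi
    have h1 := ih (by omega)
    rcases W.step (l + i) (by omega) with h2 | ⟨h2, h3⟩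
    · exact absurd h2 (h (l + i + 1) (by omega) (by omega))
    · rw [h1] at h2 h3
      exact Prod.ext h2 (by simp only [show l + (i + 1) = l + i + 1 by omega] at *; rw [h3]; ring)

/-- the walk makes steps along edges of the loop -/
theorem go_adj' (hω : ω ∈ DD V) {s : Pt} (hs : s ∈ V) {i : ℕ} (hi : i < (comp ω s).ncard) :
    Adj (go ω s i) (go ω s (i + 1)) := by
  rcases go_cases hω hs with h | h
  · rw [h, h]
    exact Q1.iter_adj hω hs i
  · rw [h i hi.le, h (i + 1) hi, show (comp ω s).ncard - i = (comp ω s).ncard - (i + 1) + 1 by omega]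
    exact L.adj_symm (Q1.iter_adj hω hs _)

theorem dn_adj {u v : Pt} (h : Adj u v) : dn q v ≤ dn q u + 1 := by
  have h1 := adj_coord h
  have h2 := (T802.dn_le_iff (p := q) (x := u) (r := dn q u)).1 le_rfl
  rw [T802.dn_le_iff]
  push_cast
  omega

theorem not_box {p x : Pt} {r : ℕ} : x ∉ box p r ↔ r < dn p x := by
  rw [← not_le, J.dn_le_iff]

/-- a loop of a new point which is far from the box and meets it is not a double edge -/
theorem loop_of_far (hω : ω ∈ DD V) {s u : Pt} {r : ℕ} (hu : u ∈ comp ω s) (hus : dn q u ≤ r)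
    (hs : r + 1 < dn q s) (hsV : s ∈ V) : ω.1 s ≠ ω.2 s := by
  intro h
  have h2 : comp ω s ⊆ {s, ω.1 s} := by
    apply L.comp_subset_of_closed
    · exact Set.mem_insert _ _
    · rintro x (rfl | rfl)
      · exact Set.mem_insert_of_mem _ rfl
      · rw [L.inv1 hω]; exact Set.mem_insert _ _
    · rintro x (rfl | rfl)
      · rw [← h]; exact Set.mem_insert_of_mem _ rfl
      · rw [h, L.inv2 hω]; exact Set.mem_insert _ _
  rcases h2 hu with rfl | h3
  · omega
  · have h3 : u = ω.1 s := h3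
    have h4 := dn_adj (q := q) (L.adj_symm (L.adj1 hω hsV))
    rw [← h3] at h4
    omega

/-- **the crossing which precedes an entry** -/
theorem Walk.crossing (W : Walk V xS ω tm M) (hω : ω ∈ DD V) {r1 r2 m0 n : ℕ} (hr : r1 + 2 ≤ r2)
    (hx : (r2 + 2 : ℤ) < |q.1 - xS|) (hm0 : m0 < n) (hn : n < M)
    (h0 : r2 ≤ dn q (pt' xS ω (tm m0))) (h1 : dn q (pt' xS ω (tm n)) ≤ r1)
    (hfirst : ∀ i, m0 ≤ i → i < n → r1 < dn q (pt' xS ω (tm i))) :
    ∃ l, m0 ≤ l ∧ l ≤ n ∧ ∃ m, ACr ω q r1 r2 (pt' xS ω (tm l)) m := by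
  classical
  set D : ℕ → ℕ := fun i => dn q (pt' xS ω (tm i)) with hD
  -- the last index far away
  obtain ⟨l, hl0, hln, hlD, hlmax⟩ : ∃ l, m0 ≤ l ∧ l < n ∧ r2 ≤ D l ∧
      ∀ i, l < i → i < n → D i < r2 := by
    set S := (Finset.range n).filter (fun i => m0 ≤ i ∧ r2 ≤ D i) with hS
    have hSne : S.Nonempty := ⟨m0, by rw [hS, mem_filter, mem_range]; exact ⟨hm0, le_rfl, h0⟩⟩
    have hmem := mem_filter.1 (S.max'_mem hSne)
    refine ⟨S.max' hSne, hmem.2.1, mem_range.1 hmem.1, hmem.2.2, fun i hi hin => ?_⟩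
    by_contra hc
    have : i ∈ S := by
      rw [hS, mem_filter, mem_range]
      exact ⟨hin, by omega, by omega⟩
    exact absurd (S.le_max' i this) (by omega)
  have hDn : D n ≤ r1 := h1
  have hlt : ∀ i, l < i → i ≤ n → D i < r2 := by
    intro i hi hin
    rcases Nat.lt_or_ge i n with h | h
    · exact hlmax i hi h
    · have : i = n := by omega
      subst this
      omega
  -- no start
  have hns : ∀ i, l < i → i ≤ l + (n - l) → (tm i).2 ≠ 0 := by
    intro i hi hin h
    have e1 := start_line (xS := xS) (ω := ω) h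
    have e2 := hlt i hi (by omega)
    have e3 := (T802.dn_le_iff (p := q) (x := pt' xS ω (tm i)) (r := D i)).1 le_rfl
    rw [e1] at e3
    rw [lt_abs] at hx
    omega
  have hseg := W.seg (l := l) (n - l) (by omega) hns
  obtain ⟨v1, v2, v3⟩ := W.valid l (by omega)
  set s : Pt := (xS, (tm l).1) with hs
  set i0 := (tm l).2 with hi0
  have hP : ∀ i ≤ n - l, pt' xS ω (tm (l + i)) = go ω s (i0 + i) := by
    intro i hi
    rw [hseg i hi]
    rfl
  have hlen : ∀ i ≤ n - l, i0 + i < (comp ω s).ncard := by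
    intro i hi
    have h3 := (W.valid (l + i) (by omega)).2.2
    rw [hseg i hi] at h3
    exact h3
  have hstep : ∀ i, i + 1 ≤ n - l → D (l + i) ≤ D (l + i + 1) + 1 ∧ D (l + i + 1) ≤ D (l + i) + 1 := by
    intro i hi
    have h3 := go_adj' hω v1 (hlen i (by omega))
    rw [add_assoc, ← hP i (by omega), ← hP (i + 1) hi] at h3
    exact ⟨dn_adj (L.adj_symm h3), dn_adj h3⟩
  -- exact distances at the ends
  have hDl : D l = r2 := by
    have h3 := (hstep 0 (by omega)).1
    have h4 := hlt (l + 0 + 1) (by omega) (by omega)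
    simp only [add_zero] at h3 h4
    omega
  have hln2 : l + 1 < n := by
    by_contra hc
    have e : n = l + 1 := by omega
    have h3 := (hstep 0 (by omega)).1
    simp only [add_zero] at h3
    rw [← e] at h3
    omega
  have hDn' : D n = r1 := by
    have h3 := (hstep (n - l - 1) (by omega)).1
    rw [show l + (n - l - 1) + 1 = n by omega, show l + (n - l - 1) = n - 1 by omega] at h3
    have h4 := hfirst (n - 1) (by omega) (by omega)
    change r1 < D (n - 1) at h4
    omega
  have hmid : ∀ i, 0 < i → i < n - l → r1 < D (l + i) ∧ D (l + i) < r2 :=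
    fun i h3 h4 => ⟨hfirst (l + i) (by omega) (by omega), hlt (l + i) (by omega) (by omega)⟩
  -- the loop is not a double edge
  have hne : ω.1 s ≠ ω.2 s := by
    have hcomp : go ω s (i0 + (n - l)) ∈ comp ω s := by
      rcases go_cases hω v1 with h | h
      · rw [h]; exact Q1.iter_comp ω s _
      · rw [h _ (hlen _ le_rfl).le]; exact Q1.iter_comp ω s _
    refine loop_of_far (q := q) (r := r1) hω hcomp ?_ ?_ v1
    · rw [← hP _ le_rfl, show l + (n - l) = n by omega]; exact h1
    · by_contra hc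
      have e3 := (T802.dn_le_iff (p := q) (x := s) (r := r1 + 1)).1 (not_lt.1 hc)
      rw [lt_abs] at hx
      push_cast at e3
      simp only [hs] at e3
      omega
  have hcm : ∀ i, go ω s i ∈ comp ω s ∨ (comp ω s).ncard < i := by
    intro i
    rcases go_cases hω v1 with h | h
    · left; rw [h]; exact Q1.iter_comp ω s _
    · rcases Nat.lt_or_ge (comp ω s).ncard i with h' | h'
      · right; exact h'
      · left; rw [h _ h']; exact Q1.iter_comp ω s _
  have hnl : l + (n - l) = n := by omega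
  rcases go_cases hω v1 with h | h
  · -- forward
    refine ⟨l, hl0, hln.le, n - l, ?_⟩
    have e0 := hP 0 (Nat.zero_le _)
    rw [add_zero, add_zero] at e0
    have hit : ∀ i ≤ n - l, (SW.suc ω)^[i] (pt' xS ω (tm l)) = pt' xS ω (tm (l + i)) := by
      intro i hi
      rw [hP i hi, e0, h, h, ← iterate_add_apply, add_comm]
    refine ⟨?_, ?_, Or.inr ⟨hDl, ?_⟩⟩
    · rw [e0]
      rcases hcm i0 with h5 | h5
      · exact L.ne_of_mem_comp hω hne h5
      · have := hlen 0 (Nat.zero_le _)
        omega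
    · intro j hj hj2
      rw [hit j hj2.le]
      exact hmid j hj hj2
    · rw [hit _ le_rfl, hnl]
      exact hDn'
  · -- backward
    refine ⟨n, by omega, le_rfl, n - l, ?_⟩
    have e0 := hP (n - l) le_rfl
    rw [hnl] at e0
    have hit : ∀ i ≤ n - l, (SW.suc ω)^[i] (pt' xS ω (tm n)) = pt' xS ω (tm (l + (n - l - i))) := by
      intro i hi
      rw [hP (n - l - i) (by omega), e0, h _ (hlen _ le_rfl).le, h _ (hlen _ (by omega)).le,
        ← iterate_add_apply]
      congr 1
      have := hlen (n - l) le_rfl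
      omega
    refine ⟨?_, ?_, Or.inl ⟨hDn', ?_⟩⟩
    · rw [e0]
      rcases hcm (i0 + (n - l)) with h5 | h5
      · exact L.ne_of_mem_comp hω hne h5
      · have := hlen (n - l) le_rfl
        omega
    · intro j hj hj2
      rw [hit j hj2.le]
      exact hmid (n - l - j) (by omega) (by omega)
    · rw [hit _ le_rfl, Nat.sub_self, add_zero]
      exact hDl

/-- every excursion contains an inward crossing -/
theorem Walk.cross_exc (W : Walk V xS ω tm M) (hω : ω ∈ DD V) {r1 r2 k : ℕ} (hr : r1 + 2 ≤ r2)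
    (hx : (r2 + 2 : ℤ) < |q.1 - xS|)
    (hk : ent M (fun n => pt' xS ω (tm n)) q r1 r2 k < M) :
    ∃ l, exi M (fun n => pt' xS ω (tm n)) q r1 r2 k ≤ l ∧
      l ≤ ent M (fun n => pt' xS ω (tm n)) q r1 r2 k ∧ ∃ m, ACr ω q r1 r2 (pt' xS ω (tm l)) m := by
  set g : ℕ → Pt := fun n => pt' xS ω (tm n) with hg
  have h1 := ent_in hk
  have h2 := exi_le_ent (N := M) (g := g) (q := q) (r0 := r1) (R := r2) k
  have hout : g (exi M g q r1 r2 k) ∉ box q r2 := by
    cases k with
    | zero =>
      show g 0 ∉ box q r2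
      rw [not_box]
      have e1 := start_line (xS := xS) (ω := ω) W.zero
      by_contra hc
      have e3 := (T802.dn_le_iff (p := q) (x := g 0) (r := r2)).1 (not_lt.1 hc)
      rw [hg] at e3
      simp only at e3
      rw [e1] at e3
      rw [lt_abs] at hx
      omega
    | succ k => exact exi_out (lt_of_le_of_lt h2 hk)
  have hne : exi M g q r1 r2 k ≠ ent M g q r1 r2 k := by
    intro he
    rw [he] at hout
    exact hout (box_mono (by omega) h1)
  have hlt : exi M g q r1 r2 k < ent M g q r1 r2 k := lt_of_le_of_ne h2 hne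
  exact W.crossing hω hr hx hlt hk (not_box.1 hout).le (J.dn_le_iff.2 h1)
    (fun i h3 h4 => not_box.1 (out_box (g := g) h3 h4))

/-- **the number of excursions is at most the number of crossings** -/
theorem Walk.count (W : Walk V xS ω tm M) (hω : ω ∈ DD V) {r1 r2 k : ℕ} (hr : r1 + 2 ≤ r2)
    (hx : (r2 + 2 : ℤ) < |q.1 - xS|)
    (hk : ent M (fun n => pt' xS ω (tm n)) q r1 r2 k < M) : k < NX ω q r1 r2 := by
  classical
  set g : ℕ → Pt := fun n => pt' xS ω (tm n) with hg
  have hent : ∀ i ≤ k, ent M g q r1 r2 i < M := fun i hi => lt_of_le_of_lt (ent_mono hi) hk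
  choose! l h1 h2 m h3 using fun i (hi : i ≤ k) => W.cross_exc hω hr hx (hent i hi)
  have hlt : ∀ i j, i < j → j ≤ k → l i < l j := by
    intro i j hij hj
    calc l i ≤ ent M g q r1 r2 i := h2 i (by omega)
      _ < exi M g q r1 r2 (i + 1) := ent_lt_exi (by omega) (hent i (by omega))
      _ ≤ exi M g q r1 r2 j := exi_mono hij
      _ ≤ l j := h1 j hj
  have hfin : {v | ∃ m, ACr ω q r1 r2 v m}.Finite :=
    V.finite_toSet.subset (fun v ⟨_, hv⟩ => L.mem_V_of_ne hω hv.loop)
  have hcard : (Finset.range (k + 1)).card ≤ hfin.toFinset.card := by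
    apply Finset.card_le_card_of_injOn (fun i => g (l i))
    · intro i hi
      rw [Finset.mem_coe, mem_range] at hi
      rw [Finset.mem_coe, Set.Finite.mem_toFinset]
      exact ⟨m i, h3 i (by omega)⟩
    · intro i hi j hj hij
      rw [Finset.mem_coe, mem_range] at hi hj
      have hi2 := lt_of_le_of_lt (h2 i (by omega)) (hent i (by omega))
      have hj2 := lt_of_le_of_lt (h2 j (by omega)) (hent j (by omega))
      have := W.inj _ hi2 _ hj2 hij
      rcases lt_trichotomy i j with h | h | h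
      · exact absurd (hlt i j h (by omega)) (by omega)
      · exact h
      · exact absurd (hlt j i h (by omega)) (by omega)
  rw [card_range] at hcard
  unfold NX
  rw [Set.ncard_eq_toFinset_card _ hfin]
  exact hcard

/-- **(E2)** a touching in 801's sense is a touching in one of the first `K` excursions -/
theorem Walk.touch (hω : ω ∈ DD V) (W : Walk V xS ω tm M) {T : Temp} {r e r' h K : ℕ}
    (hr : 1 ≤ r) (hx : (16 * r : ℤ) ≤ |q.1 - xS|) (her : r + e ≤ r') (hr' : r' ≤ 2 * r)
    (heh : e ≤ h) (ht : TouchIn T xS q r e ω) (hK : NX ω q (2 * r) (4 * r) ≤ K) :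
    ∃ k < K, Touching T (Ex' xS ω (tm (ent M (fun n => pt' xS ω (tm n)) q (2 * r) (4 * r) k)))
      (fun n => pt' xS ω (tm n)) (ent M (fun n => pt' xS ω (tm n)) q (2 * r) (4 * r) k)
      (exi M (fun n => pt' xS ω (tm n)) q (2 * r) (4 * r) (k + 1)) q r' h := by
  classical
  set g : ℕ → Pt := fun n => pt' xS ω (tm n) with hg
  obtain ⟨v, hv, hvr, ⟨y, hy⟩, hcase⟩ := ht
  -- the lowest point of the loop on the line
  have hvV := L.mem_V_of_ne hω hv
  have hcV : comp ω v ⊆ (V : Set Pt) := L.comp_subset_V hω hvV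
  obtain ⟨t, ht1, ht2⟩ : ∃ t : ℤ, (xS, t) ∈ comp ω v ∧ ∀ t', (xS, t') ∈ comp ω v → t ≤ t' := by
    obtain ⟨t, h1, h2⟩ := Int.exists_least_of_bdd (P := fun t => (xS, t) ∈ comp ω v) (by
      refine ⟨(V.image Prod.snd).inf' ⟨v.2, mem_image_of_mem _ hvV⟩ id, fun z hz => ?_⟩
      exact Finset.inf'_le id (mem_image.2 ⟨(xS, z), hcV hz, rfl⟩)) ⟨y, hy⟩
    exact ⟨t, h1, h2⟩
  set s : Pt := (xS, t) with hs
  have hsV : s ∈ V := hcV ht1
  have hcomp : comp ω s = comp ω v := L.comp_eq_of_mem hω ht1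
  have hnE : s ∉ Et xS ω t := by
    rintro ⟨y', hy', h1⟩
    have h2 : (xS, y') ∈ comp ω v := by
      rw [← hcomp]; exact L.same_symm hω h1
    exact absurd (ht2 y' h2) (by omega)
  obtain ⟨n0, hrun⟩ := W.run hsV hnE
  have hgo : ∀ i < (comp ω s).ncard, g (n0 + i) = go ω s i := by
    intro i hi
    show pt' xS ω (tm (n0 + i)) = _
    rw [(hrun i hi).2]
    rfl
  have hx2 : ((4 * r : ℕ) + 2 : ℤ) < |q.1 - xS| := by push_cast; omega
  have hE : ∀ k, ∀ j ≤ ent M g q (2 * r) (4 * r) k, ent M g q (2 * r) (4 * r) k < M →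
      g j ∈ Ex' xS ω (tm (ent M g q (2 * r) (4 * r) k)) := fun k j hj hk => W.expl _ hk j hj
  have fin : ∀ k u', ent M g q (2 * r) (4 * r) k ≤ u' → u' < M → k < K := by
    intro k u' h1 h2
    exact lt_of_lt_of_le (W.count hω (by omega) hx2 (lt_of_le_of_lt h1 h2)) hK
  rcases hcase with ⟨m, hm, hd, ⟨j1, hj1, hP1⟩, j2, hj2, hj2', hP2⟩ | ⟨f, hf, hd⟩
  · -- a pinch
    have hsP : 8 * r < dn q s := by
      by_contra hc
      have e3 := (T802.dn_le_iff (p := q) (x := s) (r := 8 * r)).1 (not_lt.1 hc)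
      rw [le_abs] at hx
      push_cast at e3
      simp only [hs] at e3
      omega
    have hv' : dn q ((SW.suc ω)^[m] v) ≤ r + e := (H904.dn_tri q v _).trans (by omega)
    obtain ⟨u, w, u', k1, k2, k3, k4, k5⟩ := pinch_path hω hsV (P := fun x => 8 * r < dn q x) hsP
      (v := v) (by rw [hcomp]; exact L.same_refl _ _) (by show ¬ 8 * r < dn q v; omega) (m := m)
      (by rw [hcomp]; exact hm) (by show ¬ 8 * r < dn q ((SW.suc ω)^[m] v); omega) ⟨j1, hj1, hP1⟩
      ⟨j2 - m, by rw [hcomp]; omega, by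
        rw [← iterate_add_apply, Nat.sub_add_cancel hj2]; exact hP2⟩
    have hu'M := (hrun u' k3).1
    have hdu : dn (go ω s u') (go ω s u) ≤ e ∧ dn q (go ω s u) ≤ r + e ∧
        dn q (go ω s u') ≤ r + e := by
      rcases k5 with ⟨k6, k7⟩ | ⟨k6, k7⟩
      · rw [k6, k7]
        exact ⟨by rw [H904.dn_comm]; exact hd, by omega, hv'⟩
      · rw [k6, k7]
        exact ⟨hd, hv', by omega⟩
    have hkey : ∃ k, ent M g q (2 * r) (4 * r) k ≤ n0 + u' ∧
        Touching T (Ex' xS ω (tm (ent M g q (2 * r) (4 * r) k))) g (ent M g q (2 * r) (4 * r) k)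
          (exi M g q (2 * r) (4 * r) (k + 1)) q r' h := by
      have hub' : g (n0 + u') ∈ box q r' := by
        rw [hgo u' k3]; exact J.dn_le_iff.1 (hdu.2.2.trans her)
      obtain ⟨k, c1, c2⟩ := cover (g := g) (R := 4 * r) (by omega : 2 * r ≤ 4 * r) hu'M
        (box_mono hr' hub')
      refine ⟨k, c1, n0 + u', c1, c2, hub', g (n0 + u), ?_, ?_⟩
      · have h5 : g (n0 + w) ∉ box q (4 * r) := by
          rw [hgo w (by omega), not_box]
          have : 8 * r < dn q (go ω s w) := k4
          omega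
        rcases before (N := M) (g := g) (u := n0 + u) c2 (by omega : n0 + u ≤ n0 + w) (by omega) h5 with h6 | ⟨_, h6⟩
        · exact not_free (hE k _ h6.le (lt_of_le_of_lt c1 hu'M))
        · rw [hgo u (by omega), not_box] at h6
          omega
      · rw [hgo u' k3, hgo u (by omega)]
        exact hdu.1.trans heh
    obtain ⟨k, c1, c2⟩ := hkey
    exact ⟨k, fin k _ c1 hu'M, c2⟩
  · -- near the outside of the polygon
    obtain ⟨u, hu, hgu⟩ := go_mem hω hsV (v := v) (by rw [hcomp]; exact L.same_refl _ _)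
    have huM := (hrun u hu).1
    have hub : g (n0 + u) ∈ box q r' := by
      rw [hgo u hu, hgu]; exact J.dn_le_iff.1 (by omega)
    obtain ⟨k, c1, c2⟩ := cover (g := g) (R := 4 * r) (by omega : 2 * r ≤ 4 * r) huM
      (box_mono hr' hub)
    refine ⟨k, fin k _ c1 huM, n0 + u, c1, c2, hub, f, fun h5 => hf h5.1, ?_⟩
    rw [hgo u hu, hgu, H904.dn_comm]
    exact hd.trans heh

end

end Vale.Agent.P155.NT802
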