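import Vale.Agent.P155.NT.Defs
import Vale.Agent.P155.T802.Strips
import Vale.Agent.P155.T802.Good

/-!
# P155, NT, block E: separation of the two types of boundary faces (deterministic part)
-/

namespace Vale.Agent.P155.NT802

open Vale.Agent.P155 T802 T905 H904 J Finset

/-- free connection inside `S` -/
def Conn (S : Set Pt) (f f' : Pt) : Prop :=
  f ∈ S ∧ Relation.ReflTransGen (fun a b => Adj a b ∧ b ∈ S) f f'

theorem Conn.mono {S S' : Set Pt} (h : S ⊆ S') {f f' : Pt} (c : Conn S f f') : Conn S' f f' :=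
  ⟨h c.1, Relation.ReflTransGen.mono (fun _ _ hab => ⟨hab.1, h hab.2⟩) _ _ c.2⟩

theorem Conn.right {S : Set Pt} {f f' : Pt} (c : Conn S f f') : f' ∈ S := by
  obtain ⟨h1, h2⟩ := c
  cases h2.cases_tail with
  | inl h => rw [h]; exact h1
  | inr h => obtain ⟨c, _, _, h3⟩ := h; exact h3

theorem Conn.refl {S : Set Pt} {f : Pt} (h : f ∈ S) : Conn S f f := ⟨h, Relation.ReflTransGen.refl⟩

theorem Conn.trans {S : Set Pt} {f g k : Pt} (c : Conn S f g) (c' : Conn S g k) : Conn S f k :=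
  ⟨c.1, c.2.trans c'.2⟩

theorem Conn.step {S : Set Pt} {f g : Pt} (hf : f ∈ S) (hg : g ∈ S) (h : Adj f g) : Conn S f g :=
  ⟨hf, Relation.ReflTransGen.single ⟨h, hg⟩⟩

theorem Conn.symm {S : Set Pt} {f f' : Pt} (c : Conn S f f') : Conn S f' f := by
  obtain ⟨h1, h2⟩ := c
  induction h2 with
  | refl => exact Conn.refl h1
  | tail h3 h4 ih =>
    have hb := Conn.right (S := S) ⟨h1, h3⟩
    exact (Conn.step h4.2 hb (L.adj_symm h4.1)).trans ih

theorem box_mono {p : Pt} {r r' : ℕ} (h : r ≤ r') {x : Pt} (hx : x ∈ box p r) : x ∈ box p r' := by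
  rw [mem_box_coord] at *
  omega

theorem adj_box {p f a : Pt} {r : ℕ} (hf : f ∈ box p r) (h : Adj f a) : a ∈ box p (r + 1) := by
  rw [mem_box_coord] at *
  have := adj_coord h
  push_cast
  omega

theorem corner_box {p a w : Pt} {r : ℕ} (ha : a ∈ box p (r + 1)) (h : w ∈ corners a) :
    w ∈ box p (r + 2) := by
  rw [mem_box_coord] at *
  simp only [corners, mem_insert, mem_singleton] at h
  push_cast at *
  rcases h with rfl | rfl | rfl | rfl <;> simp only <;> omega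

/-- **SEP**: inside `box q r`, no free path of extent `d` joins the two types of boundary faces of
the unexplored faces `OE T E`. -/
def Sep (T : Temp) (ω : Conf) (L E : Set Pt) (q : Pt) (r d : ℕ) : Prop :=
  ∀ z f f' : Pt, Conn {x | x ∈ OE T E ∧ x ∈ box q r ∧ x ∈ box z d} f f' →
    ∀ a a' : Pt, a ∉ OE T E → a' ∉ OE T E → Adj f a → Adj f' a' → (surr ω L a ↔ surr ω L a')

theorem OE_anti {T : Temp} {E E' : Set Pt} (h : E ⊆ E') : OE T E' ⊆ OE T E := by
  rintro f ⟨h1, h2⟩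
  exact ⟨h1, fun h3 => h2 (touch_mono h h3)⟩

theorem Sep.mono {T : Temp} {ω : Conf} {L E : Set Pt} {q : Pt} {r r' d d' : ℕ} (hr : r' ≤ r)
    (hd : d' ≤ d) (h : Sep T ω L E q r d) : Sep T ω L E q r' d' := by
  intro z f f' c a a' ha ha' h1 h2
  refine h z f f' (Conn.mono ?_ c) a a' ha ha' h1 h2
  rintro x ⟨x1, x2, x3⟩
  exact ⟨x1, box_mono hr x2, box_mono hd x3⟩

/-- **base case**: a box without faces which touch the explored part of the loop -/
theorem sep_base {T : Temp} {ω : Conf} {L E : Set Pt} {q : Pt} {r : ℕ} (d : ℕ)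
    (h : ∀ a, a ∉ OE T E → a ∈ box q (r + 1) → ¬ surr ω L a) : Sep T ω L E q r d := by
  intro z f f' c a a' ha ha' h1 h2
  have e1 := h a ha (adj_box c.1.2.1 h1)
  have e2 := h a' ha' (adj_box c.right.2.1 h2)
  exact ⟨fun h => absurd h e1, fun h => absurd h e2⟩

/-- **(E1) propagation of `SEP`** through one excursion. `E0` = explored at the start of the
excursion, `N` = vertices of the excursion, `E2` = explored at the start of the next one. -/
theorem sep_next {T : Temp} {ω : Conf} {L E0 E2 N : Set Pt} {q : Pt} {r d r' h r2 d2 : ℕ}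
    (hsep : Sep T ω L E0 q r d) (h02 : E0 ⊆ E2)
    (hnew : ∀ w ∈ E2, w ∉ E0 → w ∈ box q (r2 + 2) → w ∈ N)
    (htouch : ∀ w ∈ N, w ∈ box q r' → ∀ a, a ∉ OE T E0 → ¬ dn w a ≤ h)
    (hlasso : ∀ f f' : Pt, Conn {x | x ∈ OE T E2 ∧ x ∈ box q r2} f f' →
      ∀ a a' : Pt, Adj f a → Adj f' a' → (∃ w ∈ N, w ∈ corners a) → (∃ w ∈ N, w ∈ corners a') →
      a ∈ OE T E0 → a' ∈ OE T E0 → (surr ω L a ↔ surr ω L a'))
    (hr : r2 ≤ r) (hd : d2 ≤ d) (hr' : r2 + 2 ≤ r') (hh : 2 * d2 + 3 ≤ h) :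
    Sep T ω L E2 q r2 d2 := by
  classical
  intro z f f' c a a' ha ha' h1 h2
  -- a boundary face is old or touches the excursion
  have key : ∀ g b : Pt, g ∈ OE T E2 → g ∈ box q r2 → Adj g b → b ∉ OE T E2 →
      b ∉ OE T E0 ∨ (b ∈ OE T E0 ∧ ∃ w ∈ N, w ∈ corners b ∧ w ∈ box q (r2 + 2)) := by
    intro g b hg hgq hgb hb
    by_cases h0 : b ∈ OE T E0
    · right
      refine ⟨h0, ?_⟩
      have h3 : Touch E2 b := by
        by_contra h3
        exact hb ⟨h0.1, h3⟩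
      obtain ⟨w, hw, hw2⟩ := h3
      have h4 : w ∉ E0 := fun h5 => h0.2 ⟨w, hw, h5⟩
      have h5 : w ∈ box q (r2 + 2) := corner_box (adj_box hgq hgb) hw
      exact ⟨w, hnew w hw2 h4 h5, hw, h5⟩
    · left; exact h0
  have hdist : ∀ g g' b b' w : Pt, g ∈ box z d2 → g' ∈ box z d2 → Adj g b → Adj g' b' →
      w ∈ corners b' → dn w b ≤ h := by
    intro g g' b b' w hg hg' hb hb' hw
    have h3 := adj_box hg hb
    have h4 := corner_box (adj_box hg' hb') hw
    rw [mem_box_coord] at h3 h4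
    rw [T802.dn_le_iff]
    push_cast at *
    omega
  rcases key f a c.1.1 c.1.2.1 h1 ha with k1 | ⟨k1, w, hw, hwa, hwq⟩
  · rcases key f' a' c.right.1 c.right.2.1 h2 ha' with k2 | ⟨k2, w', hw', hwa', hwq'⟩
    · refine hsep z f f' (Conn.mono ?_ c) a a' k1 k2 h1 h2
      rintro x ⟨x1, x2, x3⟩
      exact ⟨OE_anti h02 x1, box_mono hr x2, box_mono hd x3⟩
    · exact absurd (hdist f f' a a' w' c.1.2.2 c.right.2.2 h1 h2 hwa')
        (htouch w' hw' (box_mono hr' hwq') a k1)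
  · rcases key f' a' c.right.1 c.right.2.1 h2 ha' with k2 | ⟨k2, w', hw', hwa', hwq'⟩
    · exact absurd (hdist f' f a' a w c.right.2.2 c.1.2.2 h2 h1 hwa)
        (htouch w hw (box_mono hr' hwq) a' k2)
    · refine hlasso f f' (Conn.mono ?_ c) a a' h1 h2 ⟨w, hw, hwa⟩ ⟨w', hw', hwa'⟩ k1 k2
      rintro x ⟨x1, x2, x3⟩
      exact ⟨x1, x2⟩

end Vale.Agent.P155.NT802
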