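import Vale.Agent.P155.NT802.Count
import Vale.Agent.P155.NT.Faces

/-!
# P155, NT, block E: SEP at the beginning of the excursions
-/

namespace Vale.Agent.P155.NT802

open Vale.Agent.P155 T802 T905 J Finset NT Function

section

variable (xS : ℤ) (ω : Conf) (tm : ℕ → ℤ × ℕ) (M : ℕ) (q : Pt) (r : ℕ)

/-- beginning of the excursion `k` into `box q (2 r)` -/
noncomputable def eK (k : ℕ) : ℕ := ent M (fun n => pt' xS ω (tm n)) q (2 * r) (4 * r) k

/-- `xK (k + 1)` : end of the excursion `k` (first exit from `box q (4 r)`) -/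
noncomputable def xK (k : ℕ) : ℕ := exi M (fun n => pt' xS ω (tm n)) q (2 * r) (4 * r) k

/-- the explored set at the beginning of the excursion `k` -/
noncomputable def EK (k : ℕ) : Set Pt := Ex' xS ω (tm (eK xS ω tm M q r k))

/-- the loop of the excursion `k` -/
noncomputable def LK (k : ℕ) : Set Pt := comp ω (xS, (tm (eK xS ω tm M q r k)).1)

/-- **SEP** at the beginning of the excursion `k` -/
def SepK (T : Temp) (k r1 d : ℕ) : Prop :=
  Sep T ω (LK xS ω tm M q r k) (EK xS ω tm M q r k) q r1 d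

/-- **touching** during the excursion `k` -/
def TouK (T : Temp) (k r' h : ℕ) : Prop :=
  Touching T (EK xS ω tm M q r k) (fun n => pt' xS ω (tm n)) (eK xS ω tm M q r k)
    (xK xS ω tm M q r (k + 1)) q r' h

end

theorem Touching.mono {T : Temp} {E0 : Set Pt} {g : ℕ → Pt} {e f : ℕ} {q : Pt} {r' r'' h h' : ℕ}
    (hr : r' ≤ r'') (hh : h ≤ h') (ht : Touching T E0 g e f q r' h) :
    Touching T E0 g e f q r'' h' := by
  obtain ⟨i, h1, h2, h3, a, h4, h5⟩ := ht
  exact ⟨i, h1, h2, box_mono hr h3, a, h4, h5.trans hh⟩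

section

variable {xS : ℤ} {ω : Conf} {tm : ℕ → ℤ × ℕ} {M : ℕ} {q : Pt} {r : ℕ} {V : Finset Pt}

theorem dn_line {t : ℤ} (hx : (16 * r : ℤ) ≤ |q.1 - xS|) : 16 * r ≤ dn q (xS, t) := by
  by_contra hc
  have e3 := (T802.dn_le_iff (p := q) (x := (xS, t)) (r := dn q (xS, t))).1 le_rfl
  rw [le_abs] at hx
  simp only at e3
  omega

/-- position of a time inside the run of its loop -/
theorem Walk.pos (W : Walk V xS ω tm M) {n : ℕ} (hn : n < M) : ∃ n0, n = n0 + (tm n).2 ∧
    ∀ i < (comp ω (xS, (tm n).1)).ncard, n0 + i < M ∧ tm (n0 + i) = ((tm n).1, i) := by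
  obtain ⟨h1, h2, h3⟩ := W.valid n hn
  obtain ⟨n0, hrun⟩ := W.run h1 h2
  refine ⟨n0, ?_, hrun⟩
  obtain ⟨h4, h5⟩ := hrun _ h3
  exact W.inj n hn _ h4 (by rw [h5])

/-- the start of a loop takes place outside of the excursions -/
theorem Walk.start_out (_W : Walk V xS ω tm M) (hr : 1 ≤ r) (hx : (16 * r : ℤ) ≤ |q.1 - xS|)
    {n0 t k : ℕ} {y : ℤ} (h0 : tm n0 = (y, 0)) (_ht : t = t)
    (h1 : eK xS ω tm M q r k ≤ n0) (h2 : n0 < xK xS ω tm M q r (k + 1)) : False := by
  have h3 := in_box (g := fun n => pt' xS ω (tm n)) h1 h2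
  have h4 : pt' xS ω (tm n0) = (xS, y) := by rw [h0]; exact go0 _ _
  rw [h4, ← J.dn_le_iff] at h3
  have := dn_line (t := y) hx
  omega

/-- before the excursion `k` the current loop has stayed outside of the box, if it is not the loop
of the excursion `k - 1` -/
theorem Walk.fresh (W : Walk V xS ω tm M) (hω : ω ∈ DD V) (hr : 1 ≤ r)
    (hx : (16 * r : ℤ) ≤ |q.1 - xS|) {k : ℕ} (hk : eK xS ω tm M q r k < M)
    (hdiff : ∀ k', k = k' + 1 → (tm (eK xS ω tm M q r k')).1 ≠ (tm (eK xS ω tm M q r k)).1) :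
    ∀ j ≤ (tm (eK xS ω tm M q r k)).2,
      2 * r ≤ dn q (go ω (xS, (tm (eK xS ω tm M q r k)).1) j) := by
  obtain ⟨n0, hn0, hrun⟩ := W.pos hk
  obtain ⟨hsV, _, hi⟩ := W.valid _ hk
  set n := eK xS ω tm M q r k with hn
  set t := (tm n).1 with ht
  set i := (tm n).2 with hi'
  have hlen : ∀ j ≤ i, j < (comp ω (xS, t)).ncard := fun j hj => lt_of_le_of_lt hj hi
  -- the start is after the end of the previous excursion
  have hge : xK xS ω tm M q r k ≤ n0 := by
    by_contra hc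
    rcases k with _ | k'
    · exact hc (Nat.zero_le _)
    · rcases Nat.lt_or_ge n0 (eK xS ω tm M q r k') with h1 | h1
      · have h2 : eK xS ω tm M q r k' ≤ n := ent_mono (Nat.le_succ k')
        have h3 := (hrun (eK xS ω tm M q r k' - n0) (hlen _ (by omega))).2
        rw [show n0 + (eK xS ω tm M q r k' - n0) = eK xS ω tm M q r k' by omega] at h3
        exact hdiff k' rfl (by rw [h3])
      · have h3 := (hrun 0 (hlen 0 (Nat.zero_le _))).2
        rw [add_zero] at h3
        exact W.start_out hr hx h3 (rfl : 0 = 0) h1 (not_le.1 hc)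
  have hout : ∀ j < i, 2 * r < dn q (go ω (xS, t) j) := by
    intro j hj
    have h1 := out_box (N := M) (g := fun n => pt' xS ω (tm n)) (q := q) (r0 := 2 * r) (R := 4 * r)
      (k := k) (i := n0 + j) (by
        change xK xS ω tm M q r k ≤ n0 + j
        omega) (by
        change n0 + j < eK xS ω tm M q r k
        omega)
    rw [(hrun j (hlen j hj.le)).2, not_box] at h1
    exact h1
  intro j hj
  rcases Nat.lt_or_ge j i with h1 | h1
  · exact (hout j h1).le
  · have e : j = i := le_antisymm hj h1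
    rcases Nat.eq_zero_or_pos i with h2 | h2
    · rw [e, h2, go0]
      have := dn_line (t := t) hx
      omega
    · have h3 := hout (i - 1) (by omega)
      have h4 := go_adj' hω hsV (i := i - 1) (hlen _ (by omega))
      rw [show i - 1 + 1 = i by omega] at h4
      have h5 := dn_adj (q := q) (L.adj_symm h4)
      rw [e]
      omega

/-- the loop of an excursion is not a double edge -/
theorem Walk.ne_exc (W : Walk V xS ω tm M) (hω : ω ∈ DD V) (hr : 1 ≤ r)
    (hx : (16 * r : ℤ) ≤ |q.1 - xS|) {k : ℕ} (hk : eK xS ω tm M q r k < M) :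
    ω.1 (xS, (tm (eK xS ω tm M q r k)).1) ≠ ω.2 (xS, (tm (eK xS ω tm M q r k)).1) := by
  obtain ⟨hsV, _, hi⟩ := W.valid _ hk
  have h1 := ent_in (g := fun n => pt' xS ω (tm n)) hk
  have hmem : go ω (xS, (tm (eK xS ω tm M q r k)).1) (tm (eK xS ω tm M q r k)).2 ∈
      comp ω (xS, (tm (eK xS ω tm M q r k)).1) := by
    rcases go_cases hω hsV with h | h
    · rw [h]; exact Q1.iter_comp ω _ _
    · rw [h _ hi.le]; exact Q1.iter_comp ω _ _
  refine loop_of_far (q := q) (r := 2 * r) hω hmem (J.dn_le_iff.2 h1) ?_ hsV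
  have := dn_line (t := (tm (eK xS ω tm M q r k)).1) hx
  omega

end

section

variable {xS : ℤ} {ω : Conf} {tm : ℕ → ℤ × ℕ} {M : ℕ} {q : Pt} {r : ℕ} {T : Temp}

/-- **base case** -/
theorem Walk.sep_base (W : Walk T.V xS ω tm M) (hω : ω ∈ DD T.V) (hr : 1 ≤ r)
    (hx : (16 * r : ℤ) ≤ |q.1 - xS|) {k : ℕ} (hk : eK xS ω tm M q r k < M)
    (hdiff : ∀ k', k = k' + 1 → (tm (eK xS ω tm M q r k')).1 ≠ (tm (eK xS ω tm M q r k)).1)
    {r1 : ℕ} (hr1 : r1 + 3 ≤ 2 * r) (d : ℕ) : SepK xS ω tm M q r T k r1 d := by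
  have hne := W.ne_exc hω hr hx hk
  obtain ⟨hsV, hsE, hi⟩ := W.valid _ hk
  have hfr := W.fresh hω hr hx hk hdiff
  refine NT802.sep_base d ?_
  intro a ha hab
  by_cases hT : a ∈ T.faceSet
  · have h1 : Touch (EK xS ω tm M q r k) a := by
      by_contra h2
      exact ha ⟨hT, h2⟩
    obtain ⟨w, hw, hwE⟩ := h1
    rcases hwE with h2 | ⟨j, hj, h2⟩
    · exact touch_Et_not_surr hω hne hsE ⟨w, hw, h2⟩
    · exfalso
      have h3 := hfr j hj
      rw [← h2] at h3
      have h4 : dn q w ≤ r1 + 2 := J.dn_le_iff.2 (corner_box hab hw)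
      omega
  · exact out_not_surr hω ⟨_, hne, rfl⟩ hT

/-- **LASSO**: two free faces joined by a free path in the box, which are adjacent to faces at
points of the same excursion `k`, see the same side of the loop at these points. -/
def LassoP : Prop :=
  ∀ (T : Temp) (xS : ℤ) (ω : Conf) (tm : ℕ → ℤ × ℕ) (M : ℕ), ω ∈ DD T.V → Walk T.V xS ω tm M →
  ∀ (q : Pt) (r k r2 : ℕ), 1 ≤ r → (16 * r : ℤ) ≤ |q.1 - xS| → r2 + 3 ≤ 2 * r →
  eK xS ω tm M q r (k + 1) < M →
  (tm (eK xS ω tm M q r k)).1 = (tm (eK xS ω tm M q r (k + 1))).1 →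
  ∀ f f' : Pt, Conn {x | x ∈ OE T (EK xS ω tm M q r (k + 1)) ∧ x ∈ box q r2} f f' →
  ∀ a a' : Pt, Adj f a → Adj f' a' →
    (∃ n, eK xS ω tm M q r k < n ∧ n < xK xS ω tm M q r (k + 1) ∧ pt' xS ω (tm n) ∈ corners a) →
    (∃ n, eK xS ω tm M q r k < n ∧ n < xK xS ω tm M q r (k + 1) ∧ pt' xS ω (tm n) ∈ corners a') →
    a ∈ OE T (EK xS ω tm M q r k) → a' ∈ OE T (EK xS ω tm M q r k) →
    (surr ω (LK xS ω tm M q r k) a ↔ surr ω (LK xS ω tm M q r k) a')

/-- **propagation** -/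
theorem Walk.sep_next (hL : LassoP) (W : Walk T.V xS ω tm M) (hω : ω ∈ DD T.V) (hr : 1 ≤ r)
    (hx : (16 * r : ℤ) ≤ |q.1 - xS|) {k : ℕ} (hk : eK xS ω tm M q r (k + 1) < M)
    (hsame : (tm (eK xS ω tm M q r k)).1 = (tm (eK xS ω tm M q r (k + 1))).1)
    {r1 d r' h r2 d2 : ℕ} (hsep : SepK xS ω tm M q r T k r1 d)
    (htouch : ¬ TouK xS ω tm M q r T k r' h) (hr2 : r2 + 3 ≤ 2 * r) (h12 : r2 ≤ r1)
    (hd : d2 ≤ d) (hr' : r2 + 2 ≤ r') (hh : 2 * d2 + 3 ≤ h) :
    SepK xS ω tm M q r T (k + 1) r2 d2 := by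
  have hle : eK xS ω tm M q r k ≤ eK xS ω tm M q r (k + 1) := ent_mono (Nat.le_succ k)
  obtain ⟨n0, hn0, hrun⟩ := W.pos hk
  obtain ⟨hsV, _, hi⟩ := W.valid _ hk
  obtain ⟨m0, hm0, hrun'⟩ := W.pos (lt_of_le_of_lt hle hk)
  rw [hsame] at hrun'
  have hpos : 0 < (comp ω (xS, (tm (eK xS ω tm M q r (k + 1))).1)).ncard := by omega
  -- the two runs agree
  have e0 : m0 = n0 := by
    obtain ⟨a1, a2⟩ := hrun 0 hpos
    obtain ⟨b1, b2⟩ := hrun' 0 hpos
    rw [add_zero] at a1 a2 b1 b2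
    exact W.inj _ b1 _ a1 (by rw [a2, b2])
  subst e0
  have hLe : LK xS ω tm M q r (k + 1) = LK xS ω tm M q r k := by
    unfold LK
    rw [hsame]
  unfold SepK
  rw [hLe]
  refine NT802.sep_next (r := r1) (d := d) (r' := r') (h := h)
    (N := {w | ∃ n, eK xS ω tm M q r k < n ∧ n < xK xS ω tm M q r (k + 1) ∧ pt' xS ω (tm n) = w})
    hsep ?_ ?_ ?_ ?_ h12 hd hr' hh
  · -- monotone
    intro w hw
    rcases hw with hw | ⟨j, hj, hw⟩
    · left
      rw [← hsame]
      exact hw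
    · right
      refine ⟨j, by omega, ?_⟩
      rw [← hsame]
      exact hw
  · -- the new vertices
    intro w hw hw0 hwb
    rcases hw with hw | ⟨j, hj, hw⟩
    · exact absurd (Or.inl (by rw [hsame]; exact hw)) hw0
    · have hj0 : (tm (eK xS ω tm M q r k)).2 < j := by
        by_contra hc
        exact hw0 (Or.inr ⟨j, not_lt.1 hc, by rw [hsame]; exact hw⟩)
      have hjl : j < (comp ω (xS, (tm (eK xS ω tm M q r (k + 1))).1)).ncard := by omega
      have hpt : pt' xS ω (tm (m0 + j)) = w := by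
        rw [(hrun j hjl).2, hw]
        rfl
      have hwd : dn q w ≤ r2 + 2 := J.dn_le_iff.2 hwb
      refine ⟨m0 + j, by omega, ?_, hpt⟩
      by_contra hc
      -- after the end of the excursion, until the beginning of the next one
      have hout : ∀ n, xK xS ω tm M q r (k + 1) ≤ n → n < eK xS ω tm M q r (k + 1) →
          2 * r < dn q (pt' xS ω (tm n)) := fun n h1 h2 =>
        not_box.1 (out_box (g := fun n => pt' xS ω (tm n)) h1 h2)
      rcases Nat.lt_or_ge (m0 + j) (eK xS ω tm M q r (k + 1)) with h1 | h1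
      · have h2 := hout _ (not_lt.1 hc) h1
        rw [hpt] at h2
        omega
      · have e1 : j = (tm (eK xS ω tm M q r (k + 1))).2 := by omega
        have hj1 : 1 ≤ j := by omega
        have hxk : xK xS ω tm M q r (k + 1) ≤ eK xS ω tm M q r (k + 1) := exi_le_ent _
        have hne : xK xS ω tm M q r (k + 1) ≠ eK xS ω tm M q r (k + 1) := by
          intro he
          have h2 := exi_out (g := fun n => pt' xS ω (tm n)) (N := M) (q := q) (r0 := 2 * r)
            (R := 4 * r) (k := k) (lt_of_le_of_lt hxk hk)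
          have h3 : pt' xS ω (tm (xK xS ω tm M q r (k + 1))) ∉ box q (4 * r) := h2
          rw [he, not_box, ← show m0 + j = eK xS ω tm M q r (k + 1) by omega, hpt] at h3
          omega
        have h2 := hout (m0 + (j - 1)) (by omega) (by omega)
        have h3 : pt' xS ω (tm (m0 + (j - 1))) =
            go ω (xS, (tm (eK xS ω tm M q r (k + 1))).1) (j - 1) := by
          rw [(hrun (j - 1) (by omega)).2]
          rfl
        have h4 := go_adj' hω hsV (i := j - 1) (by omega)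
        rw [show j - 1 + 1 = j by omega, ← h3, ← hw] at h4
        have h5 := dn_adj (q := q) (L.adj_symm h4)
        omega
  · -- no touching
    rintro w ⟨n, h1, h2, rfl⟩ hwb a ha hda
    exact htouch ⟨n, h1.le, h2, hwb, a, ha, hda⟩
  · -- lasso
    intro f f' c a a' h1 h2 h3 h4 h5 h6
    refine hL T xS ω tm M hω W q r k r2 hr hx hr2 hk hsame f f' c a a' h1 h2 ?_ ?_ h5 h6
    · obtain ⟨w, ⟨n, n1, n2, rfl⟩, hwa⟩ := h3
      exact ⟨n, n1, n2, hwa⟩
    · obtain ⟨w, ⟨n, n1, n2, rfl⟩, hwa⟩ := h4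
      exact ⟨n, n1, n2, hwa⟩

end

end Vale.Agent.P155.NT802
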