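import Vale.Agent.P155.NT802.Main

/-!
# P155, NT, block E, class version: `TOUCHP` for a class of polygons

`Cl R T` : the polygon `T` is admitted at the scale `R`. Only these polygons occur in `OneStepC Cl`
and in `TOUCHPc Cl`.
-/

namespace Vale.Agent.P155.NT802

open Vale.Agent.P155 T802 T905 J Finset NT Function Skel Filter

/-- **ONESTEP** for the class `Cl`. -/
def OneStepC (Cl : ℕ → Temp → Prop) : Prop :=
  ∀ c δ d ε : ℝ, 0 < c → 0 < δ → 0 < d → 0 < ε → ∃ η : ℝ, 0 < η ∧ ∃ R0 : ℕ, ∀ R : ℕ, R0 ≤ R →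
  ∀ T : Temp, Fits T R → Cl R T → ∀ (xS : ℤ) (q : Pt) (r r1 r' k : ℕ), c * R ≤ r → r ≤ R →
  (16 * r : ℤ) ≤ |q.1 - xS| → r ≤ r' → (r' : ℝ) + δ * R ≤ r1 → r1 + 3 ≤ 2 * r →
  Pr T.V (fun ω => SepN T xS ω q r k r1 ⌊d * R⌋₊ ∧ TouN T xS ω q r k r' ⌊η * R⌋₊) ≤ ε

/-- **TOUCHP** for the class `Cl`. -/
def TOUCHPc (Cl : ℕ → Temp → Prop) : Prop :=
  ∀ c ε : ℝ, 0 < c → 0 < ε → ∀ K : ℕ, ∃ η : ℝ, 0 < η ∧ ∃ R0 : ℕ, ∀ R : ℕ, R0 ≤ R → ∀ T : Temp,
    Fits T R → Cl R T → ∀ (xS : ℤ) (q : Pt) (r : ℕ), c * R ≤ r → (16 * r : ℤ) ≤ |q.1 - xS| →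
    Pr T.V (fun ω => TouchIn T xS q r ⌊η * R⌋₊ ω ∧ NX ω q (2 * r) (4 * r) ≤ K) ≤ ε

theorem OneStep.toC (h : OneStep) (Cl : ℕ → Temp → Prop) : OneStepC Cl := by
  intro c δ d ε hc hδ hd hε
  obtain ⟨η, hη, R0, hR0⟩ := h c δ d ε hc hδ hd hε
  exact ⟨η, hη, R0, fun R hR T hT _ => hR0 R hR T hT⟩

theorem OneStepC.mono {Cl Cl' : ℕ → Temp → Prop} (hC : ∀ R T, Cl' R T → Cl R T)
    (h : OneStepC Cl) : OneStepC Cl' := by
  intro c δ d ε hc hδ hd hε
  obtain ⟨η, hη, R0, hR0⟩ := h c δ d ε hc hδ hd hε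
  exact ⟨η, hη, R0, fun R hR T hT hCl => hR0 R hR T hT (hC R T hCl)⟩

/-- **TOUCHP for a class of polygons** -/
theorem touchp_c {Cl : ℕ → Temp → Prop} (hL : LassoP) (hone : OneStepC Cl) : TOUCHPc Cl := by
  classical
  intro c ε hc hε K
  obtain ⟨δ, hδ⟩ : ∃ δ : ℝ, δ = c / (16 * (K + 1)) := ⟨_, rfl⟩
  have hK0 : (0 : ℝ) < K + 1 := by positivity
  have hδ0 : 0 < δ := by rw [hδ]; positivity
  have hε' : 0 < ε / (K + 1) := by positivity
  choose! F hF G hG using fun (d : ℝ) (hd : 0 < d) => hone c δ d (ε / (K + 1)) hc hδ0 hd hε'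
  -- the scales
  obtain ⟨d, hd0, hds⟩ : ∃ d : ℕ → ℝ, d 0 = 1 ∧ ∀ k, d (k + 1) = min (d k) (F (d k) / 4) :=
    ⟨fun k => Nat.rec 1 (fun _ x => min x (F x / 4)) k, rfl, fun _ => rfl⟩
  have hdpos : ∀ k, 0 < d k := by
    intro k
    induction k with
    | zero => rw [hd0]; exact one_pos
    | succ k ih => rw [hds]; exact lt_min ih (by have := hF _ ih; positivity)
  have hdle : ∀ k, d (k + 1) ≤ d k := fun k => by rw [hds]; exact min_le_left _ _
  have hdF : ∀ k, 4 * d (k + 1) ≤ F (d k) := fun k => by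
    have : d (k + 1) ≤ F (d k) / 4 := by rw [hds]; exact min_le_right _ _
    linarith
  have hanti : Antitone d := antitone_nat_of_succ_le hdle
  obtain ⟨η, hη⟩ : ∃ η : ℝ, η = min (c / 8) (d (K + 1)) := ⟨_, rfl⟩
  have hη0 : 0 < η := by rw [hη]; exact lt_min (by positivity) (hdpos _)
  have hηc : η ≤ c / 8 := by rw [hη]; exact min_le_left _ _
  have hηF : ∀ k < K, η ≤ F (d k) := by
    intro k hk
    have h1 : η ≤ d (K + 1) := by rw [hη]; exact min_le_right _ _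
    have h2 : d (K + 1) ≤ d (k + 1) := hanti (by omega)
    have h3 := hdF k
    have h4 := hdpos (k + 1)
    linarith
  -- large `R`
  obtain ⟨R0, hR0⟩ : ∃ R0 : ℕ, ∀ R : ℕ, R0 ≤ R → 1 ≤ R ∧ (∀ k ∈ Finset.range (K + 1), G (d k) ≤ R ∧
      8 ≤ F (d k) * R) ∧ 8 ≤ δ * R ∧ (2 * K + 12 : ℝ) ≤ 3 / 4 * (c * R) := by
    have e1 : ∀ x : ℝ, 0 < x → ∀ y : ℝ, ∀ᶠ R : ℕ in atTop, y ≤ x * R := by
      intro x hx y
      have := (tendsto_natCast_atTop_atTop (R := ℝ)).const_mul_atTop hx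
      exact this.eventually_ge_atTop y
    have e2 : ∀ᶠ R : ℕ in atTop, 1 ≤ R ∧ (∀ k ∈ Finset.range (K + 1), G (d k) ≤ R ∧
      8 ≤ F (d k) * R) ∧ 8 ≤ δ * R ∧ (2 * K + 12 : ℝ) ≤ 3 / 4 * (c * R) := by
      refine (eventually_ge_atTop 1).and (((Finset.range (K + 1)).eventually_all.2 fun k _ => ?_).and
        ((e1 δ hδ0 8).and ?_))
      · exact (eventually_ge_atTop (G (d k))).and (e1 _ (hF _ (hdpos k)) 8)
      · have := e1 (3 / 4 * c) (by positivity) (2 * K + 12)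
        exact this.mono fun R h => by rw [← mul_assoc]; exact h
    exact eventually_atTop.1 e2
  refine ⟨η, hη0, R0, ?_⟩
  intro R hR T hfit hCl xS q r hcr hx
  obtain ⟨hR1, hRk, hRδ, hRc⟩ := hR0 R hR
  have hRr : (1 : ℝ) ≤ R := by exact_mod_cast hR1
  have hcR : 0 < c * R := by positivity
  have hr1 : 1 ≤ r := by
    have : (0 : ℝ) < r := by linarith
    exact_mod_cast this
  by_cases hrR : r ≤ R
  swap
  · -- the event is empty
    have : Pr T.V (fun ω => TouchIn T xS q r ⌊η * R⌋₊ ω ∧ NX ω q (2 * r) (4 * r) ≤ K) ≤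
        Pr T.V (fun _ => False) :=
      E.Pr_mono fun ω hω h => hrR (r_le_R hfit hω hx h.1 hR1)
    refine this.trans ?_
    have : Pr T.V (fun _ => False) = 0 := by
      rw [E.Pr_eq_avg]
      simp [avg]
    rw [this]
    exact hε.le
  -- the boxes
  obtain ⟨b, hb⟩ : ∃ b : ℕ, b = ⌈δ * R⌉₊ := ⟨_, rfl⟩
  have hb1 : δ * R ≤ b := by rw [hb]; exact Nat.le_ceil _
  have hb2 : (b : ℝ) ≤ δ * R + 1 := by rw [hb]; exact (Nat.ceil_lt_add_one (by positivity)).le
  have hb8 : 8 ≤ b := by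
    have : (8 : ℝ) ≤ b := hRδ.trans hb1
    exact_mod_cast this
  obtain ⟨e, he⟩ : ∃ e : ℕ, e = ⌊η * R⌋₊ := ⟨_, rfl⟩
  have he1 : (e : ℝ) ≤ c / 8 * R := by
    rw [he]
    exact (Nat.floor_le (by positivity)).trans (mul_le_mul_of_nonneg_right hηc (by positivity))
  rw [← he]
  have hgeo : (2 * K + 1) * b + 6 + e ≤ r := by
    have h1 : (2 * K + 1 : ℝ) * b ≤ (2 * K + 2) * (δ * R + 1) := by
      have h2 : (0 : ℝ) ≤ K := Nat.cast_nonneg _
      have h3 : (0 : ℝ) ≤ b := Nat.cast_nonneg _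
      calc (2 * K + 1 : ℝ) * b ≤ (2 * K + 2) * b := by nlinarith
        _ ≤ _ := mul_le_mul_of_nonneg_left hb2 (by positivity)
    have h2 : (2 * K + 2 : ℝ) * (δ * R + 1) = c * R / 8 + (2 * K + 2) := by
      rw [hδ]
      field_simp
      ring
    have h3 : (2 * K + 1 : ℝ) * b + 6 + e ≤ r := by
      rw [h2] at h1
      nlinarith
    exact_mod_cast h3
  set rs : ℕ → ℕ := fun k => 2 * r - 3 - 2 * (b * k) with hrs
  set rt : ℕ → ℕ := fun k => 2 * r - 3 - 2 * (b * k) - b with hrt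
  have hbK : (2 * K + 1) * b = 2 * (b * K) + b := by ring
  rw [hbK] at hgeo
  have hbk : ∀ k ≤ K, b * k ≤ b * K := fun k hk => Nat.mul_le_mul_left b hk
  -- the inclusion of events
  have hincl : ∀ ω ∈ DD T.V, (TouchIn T xS q r e ω ∧ NX ω q (2 * r) (4 * r) ≤ K) →
      ∃ k ∈ Finset.range K, SepN T xS ω q r k (rs k) ⌊d k * R⌋₊ ∧
        TouN T xS ω q r k (rt k) ⌊F (d k) * R⌋₊ := by
    rintro ω hω ⟨ht, hN⟩
    obtain ⟨k, hk, hk2⟩ := (walk hω xS).touch hω (r' := r + e) (h := e) hr1 hx le_rfl (by omega)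
      le_rfl ht hN
    have hk3 : TouN T xS ω q r k (rt k) ⌊F (d k) * R⌋₊ := by
      refine Touching.mono ?_ ?_ hk2
      · have := hbk k hk.le
        simp only [hrt]
        omega
      · rw [he]
        exact Nat.floor_mono (mul_le_mul_of_nonneg_right (hηF k hk) (by positivity))
    obtain ⟨k', hk', h1, h2⟩ := first_touch hL hω hr1 hx (rs := rs) (rt := rt)
      (ds := fun k => ⌊d k * R⌋₊) (hs := fun k => ⌊F (d k) * R⌋₊) (K := K)
      (fun k _ => by simp only [hrs]; omega)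
      (fun k hk => by
        have h1 : b * (k + 1) = b * k + b := by ring
        simp only [hrs]
        omega)
      (fun k hk => Nat.floor_mono (mul_le_mul_of_nonneg_right (hdle k) (by positivity)))
      (fun k hk => by
        have h1 : b * (k + 1) = b * k + b := by ring
        have h2 := hbk (k + 1) hk.le
        simp only [hrs, hrt]
        omega)
      (fun k hk => by
        have h1 := (hRk k (Finset.mem_range.2 (by omega))).2
        have h2 := hdF k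
        have h3 : ((⌊d (k + 1) * R⌋₊ : ℕ) : ℝ) ≤ d (k + 1) * R :=
          Nat.floor_le (by have := hdpos (k + 1); positivity)
        apply Nat.le_floor
        push_cast
        have h4 : 4 * (d (k + 1) * R) ≤ F (d k) * R := by
          have := mul_le_mul_of_nonneg_right h2 (by positivity : (0 : ℝ) ≤ R)
          linarith
        linarith)
      ⟨k, hk, hk3⟩
    exact ⟨k', Finset.mem_range.2 hk', h1, h2⟩
  refine (E.Pr_mono hincl).trans ?_
  refine (E.Pr_exists_le_card T.V (Finset.range K) (fun k ω => SepN T xS ω q r k (rs k) ⌊d k * R⌋₊ ∧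
    TouN T xS ω q r k (rt k) ⌊F (d k) * R⌋₊) (b := ε / (K + 1)) ?_).trans ?_
  · intro k hk
    rw [Finset.mem_range] at hk
    have h1 := hbk k hk.le
    refine hG (d k) (hdpos k) R (hRk k (Finset.mem_range.2 (by omega))).1 T hfit hCl xS q r (rs k) (rt k)
      k hcr hrR hx ?_ ?_ ?_
    · simp only [hrt]
      omega
    · have h2 : rt k + b = rs k := by
        simp only [hrs, hrt]
        omega
      have h3 : (rs k : ℝ) = rt k + b := by rw [← h2]; push_cast; ring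
      rw [h3]
      linarith
    · simp only [hrs]
      omega
  · rw [Finset.card_range]
    have h1 : (K : ℝ) * (ε / (K + 1)) = ε * (K / (K + 1)) := by ring
    rw [h1]
    have h2 : (K : ℝ) / (K + 1) ≤ 1 := by
      rw [div_le_one hK0]
      linarith
    nlinarith

end Vale.Agent.P155.NT802
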