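import Vale.Agent.P155.NT802.Class
import Vale.Agent.P155.NT276.PigeonF
import Vale.Agent.P155.NT34.LassoP

/-!
# P155, NT, block E, class version: `TOUCHPc F` from `T1P`, `CountP`, `USF F`
-/

namespace Vale.Agent.P155.NT802

open Vale.Agent.P155

theorem oneStepF_iff (F : ℕ → Temp → Prop) : NT276.OneStepF F ↔ OneStepC F :=
  ⟨fun h c δ d ε hc hδ hd hε => (h c δ d ε hc hδ hd hε).imp fun _ h => ⟨h.1, h.2.imp fun _ h R hR T
    hT hF => h R hR T hF hT⟩,
   fun h c δ d ε hc hδ hd hε => (h c δ d ε hc hδ hd hε).imp fun _ h => ⟨h.1, h.2.imp fun _ h R hR T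
    hF hT => h R hR T hT hF⟩⟩

theorem touchp_F {F : ℕ → Temp → Prop} (h : NT276.OneStepF F) : TOUCHPc F :=
  touchp_c NT34.lassoP ((oneStepF_iff F).1 h)

theorem touchp_of {F : ℕ → Temp → Prop} (h1 : NT276.T1P) (h2 : NT276.CountP)
    (h3 : NT276.USF F) : TOUCHPc F :=
  touchp_F (NT276.onestepF_of h1 h2 h3)

end Vale.Agent.P155.NT802
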