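import Vale.Agent.P155.NT802.RChain

/-!
# P155, NT: the number of free components which cross an annulus
-/

namespace Vale.Agent.P155.NT802

open Vale.Agent.P155 T802 NT NT733 Finset

/-- the free vertices of the annulus `a ≤ dn y · ≤ b` -/
def FA (W : Set Pt) (y : Pt) (a b : ℕ) : Set Pt := {x | x ∉ W ∧ a ≤ dn y x ∧ dn y x ≤ b}

/-- the walls inside the open annulus -/
def WA (W : Set Pt) (y : Pt) (a b : ℕ) : Set Pt := {x | x ∈ W ∧ a < dn y x ∧ dn y x < b}

theorem dn_corner {y u f : Pt} (h : u ∈ corners f) : dn y u ≤ dn y f + 1 ∧ dn y f ≤ dn y u + 1 := by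
  rw [NT.mem_corners'] at h
  have h1 := H904.dn_spec y u
  have h2 := H904.dn_spec y f
  omega

theorem R_dn' {y : Pt} {s t : ℕ} (ht : t ≤ 8 * s) : dn y (R y s t) = s := by
  rcases Nat.eq_zero_or_pos s with h | h
  · subst h
    have h0 : t = 0 := by omega
    subst h0
    unfold R
    have := rp_dn (z := y) (s := 0) (t := 0) le_rfl (by simp)
    simpa using this
  · exact R_dn h t

/-- the corners of a free face of the annulus are joined -/
theorem corners_conn {W : Set Pt} {y f : Pt} {a b : ℕ} (h1 : a + 1 ≤ dn y f) (h2 : dn y f + 1 ≤ b)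
    (hf : ∀ u ∈ corners f, u ∉ W) {u u' : Pt} (hu : u ∈ corners f) (hu' : u' ∈ corners f) :
    Conn (FA W y a b) u u' := by
  have hm : ∀ w ∈ corners f, w ∈ FA W y a b := by
    intro w hw
    have := dn_corner (y := y) hw
    exact ⟨hf w hw, by omega, by omega⟩
  rw [NT.mem_corners'] at hu hu'
  have hv : (u'.1, u.2) ∈ corners f := by
    rw [NT.mem_corners']
    simp only
    omega
  have c1 : Conn (FA W y a b) u (u'.1, u.2) := by
    by_cases h : u.1 = u'.1
    · rw [← h]
      exact Conn.refl (hm u (by rw [NT.mem_corners']; omega))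
    · refine Conn.step (hm u (by rw [NT.mem_corners']; omega)) (hm _ hv) ?_
      rw [NT.adj_iff']
      dsimp only
      omega
  have c2 : Conn (FA W y a b) (u'.1, u.2) u' := by
    by_cases h : u.2 = u'.2
    · rw [h]
      exact Conn.refl (hm u' (by rw [NT.mem_corners']; omega))
    · refine Conn.step (hm _ hv) (hm u' (by rw [NT.mem_corners']; omega)) ?_
      rw [NT.adj_iff']
      dsimp only
      omega
  exact c1.trans c2

theorem z2_cases (x : ZMod 2) : x = 0 ∨ x = 1 := by
  revert x
  decide

/-- **the main point**: if two free crossings of the annulus are not joined in the annulus, then the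
closed curve through both encloses a wall vertex on the ring. -/
theorem ring_wall {W : Set Pt} {y : Pt} {a b s : ℕ} (has : a + 1 < s) (hsb : s + 1 < b)
    {k k' : Pt} (hkk' : ¬ Conn (FA W y a b) k k') {A B A' B' : Pt → ZMod 2}
    (hev : EvenSet (fun v => A v + A' v) (fun v => B v + B' v))
    (h1 : ∀ t < 8 * s, ev A B (wi y s t) (wo y s t) ≠ 0 →
      Conn (FA W y a b) k (wi y s t) ∧ Conn (FA W y a b) k (wo y s t))
    (h2 : ∀ t < 8 * s, ev A' B' (wi y s t) (wo y s t) ≠ 0 →
      Conn (FA W y a b) k' (wi y s t) ∧ Conn (FA W y a b) k' (wo y s t))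
    (hsum : ∑ t ∈ range (8 * s), ev A B (wi y s t) (wo y s t) = 1) :
    ∃ t < 8 * s, par (fun v => A v + A' v) (R y s t) = 1 ∧ ∃ w ∈ corners (R y s t), w ∈ W := by
  classical
  by_contra hc
  push Not at hc
  set π : Pt → ZMod 2 := par (fun v => A v + A' v) with hπ
  have hs : 1 ≤ s := by omega
  -- the faces with parity one are free
  have hc' : ∀ t ≤ 8 * s, π (R y s t) = 1 → ∀ w ∈ corners (R y s t), w ∉ W := by
    intro t ht h
    rcases Nat.lt_or_ge t (8 * s) with h3 | h3
    · exact hc t h3 h
    · have h4 : t = 0 + 8 * s := by omega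
      rw [h4, R_per] at h ⊢
      exact hc 0 (by omega) h
  set L : ℕ → ZMod 2 := fun t =>
    ind (π (R y s t) = 1 ∧ ∃ u ∈ corners (R y s t), Conn (FA W y a b) k u) with hL
  have hLper : L (8 * s) = L 0 := by
    have : R y s (8 * s) = R y s 0 := by
      have := R_per y s 0
      rwa [zero_add] at this
    simp only [hL, this]
  have hdn : ∀ t ≤ 8 * s, a + 1 ≤ dn y (R y s t) ∧ dn y (R y s t) + 1 ≤ b := by
    intro t ht
    rw [R_dn' ht]
    omega
  have hcor : ∀ t < 8 * s, wi y s t ∈ corners (R y s t) ∧ wi y s t ∈ corners (R y s (t + 1)) := by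
    intro t ht
    have e1 : R y s t = rp y s t := by
      unfold R
      rw [Nat.mod_eq_of_lt ht]
    have e2 : R y s (t + 1) = rp y s (t + 1) := by
      rw [R_succ hs, Nat.mod_eq_of_lt ht]
    rw [e1, e2]
    exact (ring_corner (z := y) (s := s) (t := t) (by positivity) (by exact_mod_cast ht)).2
      (Or.inl rfl)
  have hstep : ∀ t ∈ range (8 * s), ev A B (wi y s t) (wo y s t) = L t + L (t + 1) := by
    intro t ht
    rw [mem_range] at ht
    have hflip := ring_flip hev (z := y) (s := s) ht
    rw [ev_add] at hflip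
    obtain ⟨c1, c2⟩ := hcor t ht
    -- parity one at one of the two faces: all its corners are joined
    have hj : ∀ t' ≤ 8 * s, π (R y s t') = 1 → ∀ u ∈ corners (R y s t'),
        ∀ u' ∈ corners (R y s t'), Conn (FA W y a b) u u' := fun t' ht' h u hu u' hu' =>
      corners_conn (hdn t' ht').1 (hdn t' ht').2 (hc' t' ht' h) hu hu'
    have hLt : ∀ t' ≤ 8 * s, ∀ u ∈ corners (R y s t'), π (R y s t') = 1 →
        (L t' = 1 ↔ Conn (FA W y a b) k u) := by
      intro t' ht' u hu h
      constructor
      · intro hl
        have hl' : π (R y s t') = 1 ∧ ∃ u ∈ corners (R y s t'), Conn (FA W y a b) k u := by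
          by_contra hcon
          simp only [hL, ind_false hcon] at hl
          exact absurd hl (by decide)
        obtain ⟨_, u', hu', h3⟩ := hl'
        exact h3.trans (hj t' ht' h u' hu' u hu)
      · intro h3
        simp only [hL]
        exact ind_true ⟨h, u, hu, h3⟩
    have hL0 : ∀ t', π (R y s t') = 0 → L t' = 0 := by
      intro t' h
      simp only [hL]
      apply ind_false
      rintro ⟨h3, _⟩
      rw [h] at h3
      exact absurd h3 (by decide)
    have hnot : ¬ (Conn (FA W y a b) k (wi y s t) ∧ Conn (FA W y a b) k' (wi y s t)) :=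
      fun h => hkk' (h.1.trans h.2.symm)
    rcases z2_cases (ev A B (wi y s t) (wo y s t)) with e1 | e1 <;>
      rcases z2_cases (ev A' B' (wi y s t) (wo y s t)) with e2 | e2
    · -- no crossing
      rw [e1, e2, add_zero] at hflip
      rw [e1]
      rcases z2_cases (π (R y s t)) with p1 | p1 <;> rcases z2_cases (π (R y s (t + 1))) with p2 | p2
      · rw [hL0 _ p1, hL0 _ p2, add_zero]
      · exfalso
        change π (R y s t) + π (R y s (t + 1)) = 0 at hflip
        rw [p1, p2] at hflip
        exact absurd hflip (by decide)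
      · exfalso
        change π (R y s t) + π (R y s (t + 1)) = 0 at hflip
        rw [p1, p2] at hflip
        exact absurd hflip (by decide)
      · have i1 := hLt t ht.le _ c1 p1
        have i2 := hLt (t + 1) (by omega) _ c2 p2
        by_cases h3 : Conn (FA W y a b) k (wi y s t)
        · rw [i1.2 h3, i2.2 h3]
          decide
        · have j1 : L t = 0 := (z2_cases _).resolve_right (fun h => h3 (i1.1 h))
          have j2 : L (t + 1) = 0 := (z2_cases _).resolve_right (fun h => h3 (i2.1 h))
          rw [j1, j2, add_zero]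
    · -- crossing by `k'`
      have h3 : ¬ Conn (FA W y a b) k (wi y s t) := fun h =>
        hnot ⟨h, (h2 t ht (by rw [e2]; decide)).1⟩
      rw [e1]
      have j : ∀ t' ≤ 8 * s, wi y s t ∈ corners (R y s t') → L t' = 0 := by
        intro t' ht' hc3
        rcases z2_cases (π (R y s t')) with p1 | p1
        · exact hL0 _ p1
        · exact (z2_cases _).resolve_right (fun h => h3 ((hLt t' ht' _ hc3 p1).1 h))
      rw [j t ht.le c1, j (t + 1) (by omega) c2, add_zero]
    · -- crossing by `k`
      have h3 := (h1 t ht (by rw [e1]; decide)).1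
      rw [e1, e2, add_zero] at hflip
      rw [e1]
      change π (R y s t) + π (R y s (t + 1)) = 1 at hflip
      rcases z2_cases (π (R y s t)) with p1 | p1 <;> rcases z2_cases (π (R y s (t + 1))) with p2 | p2
      · rw [p1, p2] at hflip
        exact absurd hflip (by decide)
      · rw [hL0 _ p1, (hLt (t + 1) (by omega) _ c2 p2).2 h3, zero_add]
      · rw [hL0 _ p2, (hLt t ht.le _ c1 p1).2 h3, add_zero]
      · rw [p1, p2] at hflip
        exact absurd hflip (by decide)
    · exact absurd ⟨(h1 t ht (by rw [e1]; decide)).1, (h2 t ht (by rw [e2]; decide)).1⟩ hnot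
  rw [sum_congr rfl hstep] at hsum
  have htele : ∀ n : ℕ, ∑ t ∈ range n, (L t + L (t + 1)) = L 0 + L n := by
    intro n
    induction n with
    | zero => rw [sum_range_zero, z2]
    | succ n ih =>
      rw [sum_range_succ, ih]
      have : ∀ p q r : ZMod 2, p + q + (q + r) = p + r := by decide
      exact this _ _ _
  rw [htele, hLper, z2] at hsum
  exact absurd hsum (by decide)

end Vale.Agent.P155.NT802
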