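import Vale.Agent.P155.E4.Mass

/-!
# P155, NT, visit bound: the far part of the layer function of a density of scale `n0`

`far_meso`: the layer function of a source dominated by `dens C0 p n0` has mass at most
`M (n0 / ρ) ^ γ` off `box p ρ`.
-/

namespace Vale.Agent.P155.NT802

open Finset Vale.Agent.P155 Vale.Agent.P155.G45 Vale.Agent.P155.J Vale.Agent.P155.H12
open Vale.Agent.P155.H904 Vale.Agent.P155.E4

/-- `∑ (n + k)^(-3/2)` by telescoping -/
theorem sum_three_halves {n : ℕ} (hn : 1 ≤ n) (M : ℕ) :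
    ∑ k ∈ Finset.range (M + 1), 1 / (((n : ℝ) + k) * Real.sqrt ((n : ℝ) + k)) ≤
      3 / Real.sqrt n - 2 / Real.sqrt ((n : ℝ) + M) := by
  have hn1 : (1 : ℝ) ≤ n := by exact_mod_cast hn
  induction M with
  | zero =>
    rw [Finset.sum_range_one]
    push_cast
    rw [add_zero]
    have hs : 0 < Real.sqrt n := Real.sqrt_pos.2 (by linarith)
    have e : 3 / Real.sqrt n - 2 / Real.sqrt n = 1 / Real.sqrt n := by ring
    rw [e]
    apply one_div_le_one_div_of_le hs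
    nlinarith
  | succ M ih =>
    rw [Finset.sum_range_succ]
    refine (add_le_add ih le_rfl).trans ?_
    push_cast
    set m : ℝ := (n : ℝ) + M with hm
    have hm1 : 1 ≤ m := by
      have : (0 : ℝ) ≤ M := Nat.cast_nonneg _
      linarith
    have e1 : (n : ℝ) + ((M : ℝ) + 1) = m + 1 := by rw [hm]; ring
    rw [e1]
    set x := Real.sqrt m with hx
    set y := Real.sqrt (m + 1) with hy
    have hx0 : 0 < x := Real.sqrt_pos.2 (by linarith)
    have hy0 : 0 < y := Real.sqrt_pos.2 (by linarith)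
    have hx2 : x * x = m := Real.mul_self_sqrt (by linarith)
    have hy2 : y * y = m + 1 := Real.mul_self_sqrt (by linarith)
    have hxy : x ≤ y := Real.sqrt_le_sqrt (by linarith)
    have key : 1 / ((m + 1) * y) ≤ 2 / x - 2 / y := by
      rw [div_sub_div _ _ hx0.ne' hy0.ne', div_le_div_iff₀ (by positivity) (by positivity), ← hy2]
      have h1 : (y - x) * (y + x) = 1 := by nlinarith
      have h2 : x * (y + x) ≤ 2 * (y * y) := by nlinarith
      have h3 : 0 < y + x := by linarith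
      -- multiply by `y + x`
      have h4 : (1 * (x * y)) * (y + x) ≤ ((2 * y - x * 2) * (y * y * y)) * (y + x) := by
        have e2 : ((2 * y - x * 2) * (y * y * y)) * (y + x) =
            2 * (y * y * y) * ((y - x) * (y + x)) := by ring
        rw [e2, h1]
        nlinarith [mul_pos hy0 hy0]
      exact le_of_mul_le_mul_right h4 h3
    linarith

theorem alg_aux (C0 X : ℝ) {z w : ℝ} (hz : 0 < z) (hw : 0 < w) :
    (8 * (z * z)) * (8 * C0 * (w * w) / (z * z) ^ 3 * (X * (z / w))) =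
      64 * C0 * X * w * (1 / ((z * z) * z)) := by
  field_simp
  ring

open Classical in
/-- moment of order `γ ≤ 1/2` of the density -/
theorem dens_pow {γ : ℝ} (hγ : 0 < γ) (hγ1 : γ ≤ 1 / 2) {C0 : ℝ} (hC0 : 0 ≤ C0) (p : Pt) {n0 ρ : ℕ}
    (hn : 1 ≤ n0) (hρ : 1 ≤ ρ) (S : Finset Pt) :
    ∑ y ∈ S, dens C0 p n0 y * ((((n0 : ℝ) + dn p y) / ρ) ^ γ) ≤
      192 * C0 * ((n0 : ℝ) / ρ) ^ γ := by
  have hn0 : (0 : ℝ) < n0 := by exact_mod_cast hn
  have hn1 : (1 : ℝ) ≤ n0 := by exact_mod_cast hn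
  have hρ0 : (0 : ℝ) < ρ := by exact_mod_cast hρ
  set X : ℝ := ((n0 : ℝ) / ρ) ^ γ with hX
  have hX0 : 0 ≤ X := by positivity
  -- pointwise
  have hpt : ∀ k : ℕ, (((n0 : ℝ) + k) / ρ) ^ γ ≤ X * (Real.sqrt ((n0 : ℝ) + k) / Real.sqrt n0) := by
    intro k
    have hk : (0 : ℝ) ≤ k := Nat.cast_nonneg _
    have e1 : ((n0 : ℝ) + k) / ρ = ((n0 : ℝ) / ρ) * (((n0 : ℝ) + k) / n0) := by field_simp
    rw [e1, Real.mul_rpow (by positivity) (by positivity)]
    apply mul_le_mul_of_nonneg_left _ hX0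
    rw [← Real.sqrt_div' _ hn0.le, Real.sqrt_eq_rpow]
    apply Real.rpow_le_rpow_of_exponent_le _ hγ1
    rw [le_div_iff₀ hn0]
    linarith
  obtain ⟨N, hN⟩ : ∃ N : ℕ, ∀ y ∈ S, dn p y ≤ N :=
    ⟨S.sup (fun y => dn p y), fun y hy => Finset.le_sup (f := fun y => dn p y) hy⟩
  have hsub : S ⊆ box p N := fun y hy => G45.mem_box.2 (hN y hy)
  have h1 : ∑ y ∈ S, dens C0 p n0 y * ((((n0 : ℝ) + dn p y) / ρ) ^ γ) ≤
      ∑ y ∈ box p N, dens C0 p n0 y * ((((n0 : ℝ) + dn p y) / ρ) ^ γ) :=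
    Finset.sum_le_sum_of_subset_of_nonneg hsub (fun y _ _ =>
      mul_nonneg (dens_nonneg hC0 p n0 y) (by positivity))
  refine h1.trans ?_
  have hmap : ∀ x ∈ box p N, dn p x ∈ Finset.range (N + 1) := by
    intro x hx
    have := G45.mem_box.1 hx
    rw [Finset.mem_range]
    omega
  rw [← Finset.sum_fiberwise_of_maps_to hmap]
  have h2 : ∀ k ∈ Finset.range (N + 1),
      ∑ x ∈ (box p N).filter (fun x => dn p x = k),
        dens C0 p n0 x * ((((n0 : ℝ) + dn p x) / ρ) ^ γ) ≤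
        64 * C0 * X * Real.sqrt n0 * (1 / (((n0 : ℝ) + k) * Real.sqrt ((n0 : ℝ) + k))) := by
    intro k _
    have hk0 : (0 : ℝ) ≤ k := Nat.cast_nonneg _
    have hk : (0 : ℝ) < (n0 : ℝ) + k := by positivity
    set z := Real.sqrt ((n0 : ℝ) + k) with hz
    have hz0 : 0 < z := Real.sqrt_pos.2 hk
    have hz2 : z * z = (n0 : ℝ) + k := Real.mul_self_sqrt hk.le
    set w := Real.sqrt (n0 : ℝ) with hw
    have hw0 : 0 < w := Real.sqrt_pos.2 hn0
    have hw2 : w * w = (n0 : ℝ) := Real.mul_self_sqrt hn0.le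
    have e : ∀ x ∈ (box p N).filter (fun x => dn p x = k),
        dens C0 p n0 x * ((((n0 : ℝ) + dn p x) / ρ) ^ γ) ≤
        8 * C0 * n0 / ((n0 : ℝ) + k) ^ 3 * (X * (z / w)) := by
      intro x hx
      have hd := (Finset.mem_filter.1 hx).2
      unfold E4.dens
      rw [hd]
      exact mul_le_mul_of_nonneg_left (hpt k) (by positivity)
    refine (Finset.sum_le_sum e).trans ?_
    rw [Finset.sum_const, nsmul_eq_mul]
    have h3 : (((box p N).filter (fun x => dn p x = k)).card : ℝ) ≤ 8 * ((k : ℝ) + 1) := by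
      exact_mod_cast card_shell p N k
    calc (((box p N).filter (fun x => dn p x = k)).card : ℝ) *
          (8 * C0 * n0 / ((n0 : ℝ) + k) ^ 3 * (X * (z / w)))
        ≤ (8 * ((n0 : ℝ) + k)) * (8 * C0 * n0 / ((n0 : ℝ) + k) ^ 3 * (X * (z / w))) := by
          apply mul_le_mul_of_nonneg_right _ (by positivity)
          linarith
      _ = 64 * C0 * X * w * (1 / (((n0 : ℝ) + k) * z)) := by
          have h := alg_aux C0 X hz0 hw0
          rw [hz2, hw2] at h
          exact h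
  refine (Finset.sum_le_sum h2).trans ?_
  rw [← Finset.mul_sum]
  have h4 := sum_three_halves hn N
  have hs : 0 < Real.sqrt n0 := Real.sqrt_pos.2 hn0
  have h5 : ∑ k ∈ Finset.range (N + 1), 1 / (((n0 : ℝ) + k) * Real.sqrt ((n0 : ℝ) + k)) ≤
      3 / Real.sqrt n0 := by
    refine h4.trans ?_
    have : 0 ≤ 2 / Real.sqrt ((n0 : ℝ) + N) := by positivity
    linarith
  calc _ ≤ 64 * C0 * X * Real.sqrt n0 * (3 / Real.sqrt n0) :=
        mul_le_mul_of_nonneg_left h5 (by positivity)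
    _ = 192 * C0 * X := by field_simp; ring

/-- The probability of leaving the box `dn p y < ρ` through `O`. -/
theorem exists_out {O : Set Pt} (hO : O.Finite) (p : Pt) (ρ : ℕ) :
    ∃ w : Pt → ℝ, (∀ x, 0 ≤ w x) ∧ (∀ x, w x ≤ 1) ∧ (∀ x, x ∉ O → w x = 0) ∧
      (∀ x ∈ O, lap w x ≤ 0) ∧ (∀ x ∈ O, ρ ≤ dn p x → w x = 1) ∧
      (∀ x ∈ O, dn p x < ρ → lap w x = 0) := by
  classical
  set D : Set Pt := {y | y ∈ O ∧ dn p y < ρ} with hD
  have hDfin : D.Finite := hO.subset fun y hy => hy.1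
  obtain ⟨w, hw1, hw2⟩ := exists_dirichlet hDfin (fun _ => 0) (fun y => if y ∈ O then 1 else 0)
  have hle : ∀ x, w x ≤ 1 := by
    apply comparison hDfin (v := fun _ => 1)
    · intro y hy
      rw [lap_const]
      linarith [hw2 y hy]
    · intro y hy
      rw [hw1 y hy]
      split_ifs <;> norm_num
  have hge : ∀ x, 0 ≤ w x := by
    apply comparison hDfin (u := fun _ => 0)
    · intro y hy
      rw [lap_const]
      linarith [hw2 y hy]
    · intro y hy
      rw [hw1 y hy]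
      split_ifs <;> norm_num
  have hoff : ∀ x, x ∉ O → w x = 0 := by
    intro x hx
    rw [hw1 x (fun h => hx h.1), if_neg hx]
  have hone : ∀ x ∈ O, ρ ≤ dn p x → w x = 1 := by
    intro x hx h
    rw [hw1 x (fun h' => by have := h'.2; omega), if_pos hx]
  refine ⟨w, hge, hle, hoff, ?_, hone, ?_⟩
  · intro x hx
    by_cases hxD : x ∈ D
    · linarith [hw2 x hxD]
    · have h1 : w x = 1 := by rw [hw1 x hxD, if_pos hx]
      unfold lap
      linarith [hle (x.1 + 1, x.2), hle (x.1 - 1, x.2), hle (x.1, x.2 + 1), hle (x.1, x.2 - 1)]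
  · intro x hx h
    have := hw2 x ⟨hx, h⟩
    linarith

/-- **(FARM)** The far part of the layer function at an arbitrary scale (no hypothesis on the
support of `φ`, any `ρ ≥ 1`). -/
theorem far_meso : ∃ γ : ℝ, 0 < γ ∧ γ ≤ 1 ∧ ∀ C0 Cc : ℝ, 0 ≤ C0 → ∃ M : ℝ, 0 ≤ M ∧
    ∀ (O : Set Pt) (p : Pt) (n0 s : ℕ) (χ φ u : Pt → ℝ), O.Finite → CPr O → p ∉ O → 1 ≤ n0 →
      1 ≤ s → 8 * s ≤ n0 → IsCut O s Cc χ → (∀ y, |φ y| ≤ dens C0 p n0 y) → IsGreen O φ u →
      ∀ ρ : ℕ, 1 ≤ ρ → ∀ S : Finset Pt, (∀ x ∈ S, x ∉ box p ρ) →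
        ∑ x ∈ S, |fL O φ χ u x| ≤ M * ((n0 : ℝ) / ρ) ^ γ := by
  classical
  obtain ⟨β, hβ, hSD, hOut⟩ := G1.decay
  obtain ⟨γ1, hγ1, hγ11, hpot⟩ := pot_meso
  obtain ⟨D, hD, hvis⟩ := visits_local hβ (by norm_num) hSD
  obtain ⟨A, hA, hfl⟩ := fL_pt hβ (by norm_num) hSD
  set γ := min β (1 / 2) with hγ
  have hγ0 : 0 < γ := lt_min hβ (by norm_num)
  have hγh : γ ≤ 1 / 2 := min_le_right _ _
  refine ⟨γ, hγ0, by linarith, fun C0 Cc' hC0 => ?_⟩
  obtain ⟨Cd, hCd, hpot⟩ := hpot C0 hC0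
  set Cc := max Cc' 0 with hCc
  have hCc0 : 0 ≤ Cc := le_max_right _ _
  set K := A * (Cc + 1) with hK
  have hK0 : 0 ≤ K := by positivity
  refine ⟨K * (D * (2 * (192 * C0))) + K * (192 * C0), by positivity, ?_⟩
  intro O p n0 s χ φ u hO hCP hp hn hs h8 hχ hφ hu ρ hρ S hS
  have hCce : Cc = Cc' := max_eq_left (cut_C0_nonneg hχ)
  obtain ⟨ub, hub, hub0, hdom, hsup, hdec⟩ := hpot O p n0 φ u hO hCP hp hn hφ hu
  have hs0 : (0 : ℝ) < s := by exact_mod_cast hs
  have hn0 : (0 : ℝ) < n0 := by exact_mod_cast hn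
  have hn1 : (1 : ℝ) ≤ n0 := by exact_mod_cast hn
  have hρ0 : (0 : ℝ) < ρ := by exact_mod_cast hρ
  have hd0 : ∀ y, 0 ≤ dens C0 p n0 y := fun y => dens_nonneg hC0 p n0 y
  set X : ℝ := ((n0 : ℝ) / ρ) ^ γ with hX
  have hX0 : 0 ≤ X := by positivity
  have hpt : ∀ x, |fL O φ χ u x| ≤
      if x ∈ O ∧ dF O x ≤ 2 * s then K * (ub x / s ^ 2 + dens C0 p n0 x) else 0 := by
    intro x
    by_cases h0 : fL O φ χ u x = 0
    · rw [h0, abs_zero]
      split_ifs
      · have := hub0 x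
        have := hd0 x
        positivity
      · exact le_rfl
    · obtain ⟨k1, k2, k3⟩ := hfl O hO s Cc' C0 χ φ u ub p n0 hs hn h8 hC0 hχ hu hφ hub hdom x h0
      rw [if_pos ⟨k1, k2⟩, hK, hCce]
      exact k3
  have hsum : ∑ x ∈ S, |fL O φ χ u x| ≤
      K / s ^ 2 * (∑ x ∈ S.filter (fun x => x ∈ O ∧ dF O x ≤ 2 * s), ub x) +
        K * ∑ x ∈ S, dens C0 p n0 x := by
    calc ∑ x ∈ S, |fL O φ χ u x|
        ≤ ∑ x ∈ S, (if x ∈ O ∧ dF O x ≤ 2 * s then K * (ub x / s ^ 2 + dens C0 p n0 x) else 0) :=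
          Finset.sum_le_sum (fun x _ => hpt x)
      _ = ∑ x ∈ S.filter (fun x => x ∈ O ∧ dF O x ≤ 2 * s),
            K * (ub x / s ^ 2 + dens C0 p n0 x) := by
          rw [Finset.sum_filter]
      _ = K / s ^ 2 * (∑ x ∈ S.filter (fun x => x ∈ O ∧ dF O x ≤ 2 * s), ub x) +
            K * ∑ x ∈ S.filter (fun x => x ∈ O ∧ dF O x ≤ 2 * s), dens C0 p n0 x := by
          rw [← Finset.mul_sum, Finset.sum_add_distrib, ← Finset.sum_div]
          ring
      _ ≤ _ := by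
          apply add_le_add le_rfl
          apply mul_le_mul_of_nonneg_left _ hK0
          exact Finset.sum_le_sum_of_subset_of_nonneg (Finset.filter_subset _ _)
            (fun x _ _ => hd0 x)
  have hfar : ∀ x ∈ S, ρ ≤ dn p x := by
    intro x hx
    have h1 := hS x hx
    rw [G45.mem_box] at h1
    omega
  -- the tail of the density
  have htail : ∑ x ∈ S, dens C0 p n0 x ≤ 192 * C0 * X := by
    refine le_trans (Finset.sum_le_sum fun x hx => ?_) (dens_pow hγ0 hγh hC0 p hn hρ S)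
    have h1 : (ρ : ℝ) ≤ dn p x := by exact_mod_cast hfar x hx
    have h2 : 1 ≤ ((((n0 : ℝ) + dn p x) / ρ) ^ γ) := by
      apply Real.one_le_rpow _ hγ0.le
      rw [le_div_iff₀ hρ0]
      linarith
    calc dens C0 p n0 x = dens C0 p n0 x * 1 := by ring
      _ ≤ _ := mul_le_mul_of_nonneg_left h2 (hd0 x)
  -- the visits
  obtain ⟨w, hw0, hw1, hwoff, hwl, hwone, hwh⟩ := exists_out hO p ρ
  have hwb : ∀ x, w x ≤ 2 * ((((n0 : ℝ) + dn p x) / ρ) ^ γ) := by
    intro x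
    have hd : (0 : ℝ) ≤ dn p x := Nat.cast_nonneg _
    rcases Nat.lt_or_ge (dn p x) ρ with h | h
    · have h1 := hSD O p ρ 1 w (fun r _ => hCP p hp r) hwoff hwh
        (fun y _ => by rw [abs_of_nonneg (hw0 y)]; exact hw1 y) x h.le
      rw [abs_of_nonneg (hw0 x), mul_one] at h1
      refine h1.trans ?_
      apply mul_le_mul_of_nonneg_left _ (by norm_num)
      have hlt : (dn p x : ℝ) ≤ ρ := by exact_mod_cast h.le
      have hq0 : 0 < ((dn p x : ℝ) + 1) / ((ρ : ℝ) + 1) := by positivity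
      have hq1 : ((dn p x : ℝ) + 1) / ((ρ : ℝ) + 1) ≤ 1 := by
        rw [div_le_one (by positivity)]
        linarith
      refine (Real.rpow_le_rpow_of_exponent_ge hq0 hq1 (min_le_left β (1 / 2))).trans ?_
      apply Real.rpow_le_rpow hq0.le _ hγ0.le
      rw [div_le_div_iff₀ (by positivity) hρ0]
      nlinarith
    · have h1 : (ρ : ℝ) ≤ dn p x := by exact_mod_cast h
      have h2 : 1 ≤ ((((n0 : ℝ) + dn p x) / ρ) ^ γ) := by
        apply Real.one_le_rpow _ hγ0.le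
        rw [le_div_iff₀ hρ0]
        linarith
      linarith [hw1 x]
  have hv := hvis O hO hCP s hs (S.filter (fun x => x ∈ O ∧ dF O x ≤ 2 * s)) (dens C0 p n0) ub w
    (fun x hx => (Finset.mem_filter.1 hx).2.2) hub (fun y _ => hd0 y) hw0
    (fun x hx _ => hwl x hx)
    (fun x hx => by
      obtain ⟨h1, h2, -⟩ := Finset.mem_filter.1 hx
      exact (hwone x h2 (hfar x h1)).ge)
  have hvm : ∑ x ∈ hO.toFinset, dens C0 p n0 x * w x ≤ 2 * (192 * C0 * X) := by
    calc ∑ x ∈ hO.toFinset, dens C0 p n0 x * w x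
        ≤ ∑ x ∈ hO.toFinset, 2 * (dens C0 p n0 x * ((((n0 : ℝ) + dn p x) / ρ) ^ γ)) := by
          refine Finset.sum_le_sum fun x _ => ?_
          have := mul_le_mul_of_nonneg_left (hwb x) (hd0 x)
          linarith
      _ = 2 * ∑ x ∈ hO.toFinset, dens C0 p n0 x * ((((n0 : ℝ) + dn p x) / ρ) ^ γ) := by
          rw [Finset.mul_sum]
      _ ≤ _ := mul_le_mul_of_nonneg_left (dens_pow hγ0 hγh hC0 p hn hρ _) (by norm_num)
  have h6 : K / (s : ℝ) ^ 2 * (∑ x ∈ S.filter (fun x => x ∈ O ∧ dF O x ≤ 2 * s), ub x) ≤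
      K * (D * (2 * (192 * C0 * X))) := by
    calc K / (s : ℝ) ^ 2 * (∑ x ∈ S.filter (fun x => x ∈ O ∧ dF O x ≤ 2 * s), ub x)
        ≤ K / (s : ℝ) ^ 2 * (D * (s : ℝ) ^ 2 * (2 * (192 * C0 * X))) := by
          apply mul_le_mul_of_nonneg_left _ (by positivity)
          exact hv.trans (mul_le_mul_of_nonneg_left hvm (by positivity))
      _ = K * (D * (2 * (192 * C0 * X))) := by field_simp
  have h7 := mul_le_mul_of_nonneg_left htail hK0
  calc _ ≤ _ := hsum
    _ ≤ K * (D * (2 * (192 * C0 * X))) + K * (192 * C0 * X) := add_le_add h6 h7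
    _ = _ := by ring

end Vale.Agent.P155.NT802
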