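import Vale.Agent.P155.NT802.Stage
import Vale.Agent.P155.NT.Time

/-!
# P155, NT, block E: `TOUCHP` from the lasso lemma and the one-step estimate
-/

namespace Vale.Agent.P155.NT802

open Vale.Agent.P155 T802 T905 J Finset NT Function Skel Filter

/-- the global exploration is a `Walk` -/
theorem walk {V : Finset Pt} {ω : Conf} (hω : ω ∈ DD V) (xS : ℤ) :
    Walk V xS ω (Tm.tm V xS ω) (Tm.M V xS ω) where
  valid n hn := by
    obtain ⟨⟨h1, h2⟩, h3⟩ := Tm.valid' hω hn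
    exact ⟨h1, h2, h3⟩
  inj i hi j hj h := Tm.p_inj hω hi hj h
  zero := rfl
  step n _ := by
    rcases Tm.tm_step V xS ω n with ⟨t, _, h, _⟩ | ⟨h, _⟩
    · left; rw [h]
    · right; rw [h]; exact ⟨rfl, rfl⟩
  all t i h1 h2 h3 := Tm.surj hω ⟨h1, h2⟩ h3
  expl n _ i hi := Tm.p_mem_En hi

section

variable (T : Temp) (xS : ℤ) (ω : Conf) (q : Pt) (r : ℕ)

/-- beginning of the excursion `k` into `box q (2 r)` -/
noncomputable def eN (k : ℕ) : ℕ := eK xS ω (Tm.tm T.V xS ω) (Tm.M T.V xS ω) q r k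

/-- **SEP** at the beginning of the excursion `k` (in `box q r1`, for free paths of extent `d`) -/
def SepN (k r1 d : ℕ) : Prop := SepK xS ω (Tm.tm T.V xS ω) (Tm.M T.V xS ω) q r T k r1 d

/-- **touching** during the excursion `k` (in `box q r'`, at distance `≤ h`) -/
def TouN (k r' h : ℕ) : Prop := TouK xS ω (Tm.tm T.V xS ω) (Tm.M T.V xS ω) q r T k r' h

end

/-- **ONESTEP**: the one-step estimate. -/
def OneStep : Prop :=
  ∀ c δ d ε : ℝ, 0 < c → 0 < δ → 0 < d → 0 < ε → ∃ η : ℝ, 0 < η ∧ ∃ R0 : ℕ, ∀ R : ℕ, R0 ≤ R →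
  ∀ T : Temp, Fits T R → ∀ (xS : ℤ) (q : Pt) (r r1 r' k : ℕ), c * R ≤ r → r ≤ R →
  (16 * r : ℤ) ≤ |q.1 - xS| → r ≤ r' → (r' : ℝ) + δ * R ≤ r1 → r1 + 3 ≤ 2 * r →
  Pr T.V (fun ω => SepN T xS ω q r k r1 ⌊d * R⌋₊ ∧ TouN T xS ω q r k r' ⌊η * R⌋₊) ≤ ε

/-- touching takes place only in an existing excursion -/
theorem TouN.lt {T : Temp} {xS : ℤ} {ω : Conf} {q : Pt} {r k r' h : ℕ}
    (ht : TouN T xS ω q r k r' h) : eN T xS ω q r k < Tm.M T.V xS ω := by
  obtain ⟨i, h1, h2, _⟩ := ht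
  have h3 : xK xS ω (Tm.tm T.V xS ω) (Tm.M T.V xS ω) q r (k + 1) ≤ Tm.M T.V xS ω := exi_le _
  unfold eN
  omega

/-- the first touching excursion has SEP at its beginning -/
theorem first_touch (hL : LassoP) {T : Temp} {xS : ℤ} {ω : Conf} (hω : ω ∈ DD T.V) {q : Pt}
    {r : ℕ} (hr : 1 ≤ r) (hx : (16 * r : ℤ) ≤ |q.1 - xS|) {rs rt ds hs : ℕ → ℕ} {K : ℕ}
    (h1 : ∀ k < K, rs k + 3 ≤ 2 * r) (h2 : ∀ k, k + 1 < K → rs (k + 1) ≤ rs k)
    (h3 : ∀ k, k + 1 < K → ds (k + 1) ≤ ds k) (h4 : ∀ k, k + 1 < K → rs (k + 1) + 2 ≤ rt k)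
    (h5 : ∀ k, k + 1 < K → 2 * ds (k + 1) + 3 ≤ hs k)
    (ht : ∃ k < K, TouN T xS ω q r k (rt k) (hs k)) :
    ∃ k < K, SepN T xS ω q r k (rs k) (ds k) ∧ TouN T xS ω q r k (rt k) (hs k) := by
  classical
  have W := walk hω xS
  obtain ⟨k0, ⟨hk0, ht0⟩, hmin⟩ : ∃ k, (k < K ∧ TouN T xS ω q r k (rt k) (hs k)) ∧
      ∀ m < k, ¬ (m < K ∧ TouN T xS ω q r m (rt m) (hs m)) :=
    ⟨Nat.find ht, Nat.find_spec ht, fun m hm => Nat.find_min ht hm⟩
  have hlt := ht0.lt
  have hent : ∀ k ≤ k0, eK xS ω (Tm.tm T.V xS ω) (Tm.M T.V xS ω) q r k < Tm.M T.V xS ω :=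
    fun k hk => lt_of_le_of_lt (ent_mono hk) hlt
  have key : ∀ k ≤ k0, SepN T xS ω q r k (rs k) (ds k) := by
    intro k
    induction k with
    | zero =>
      intro hk
      exact W.sep_base hω hr hx (hent 0 hk) (fun k' h => absurd h (by omega)) (h1 0 (by omega)) _
    | succ k ih =>
      intro hk
      by_cases hsame : (Tm.tm T.V xS ω (eK xS ω (Tm.tm T.V xS ω) (Tm.M T.V xS ω) q r k)).1 =
          (Tm.tm T.V xS ω (eK xS ω (Tm.tm T.V xS ω) (Tm.M T.V xS ω) q r (k + 1))).1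
      · exact W.sep_next hL hω hr hx (hent (k + 1) hk) hsame (ih (by omega))
          (fun h => hmin k (by omega) ⟨by omega, h⟩) (h1 (k + 1) (by omega)) (h2 k (by omega))
          (h3 k (by omega)) (h4 k (by omega)) (h5 k (by omega))
      · refine W.sep_base hω hr hx (hent (k + 1) hk) ?_ (h1 (k + 1) (by omega)) _
        intro k' h
        have : k' = k := by omega
        subst this
        exact hsame
  exact ⟨k0, hk0, key k0 le_rfl, ht0⟩

/-- a loop which touches in `box q r` and meets the line is large -/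
theorem r_le_R {T : Temp} {R : ℕ} (hfit : Fits T R) {xS : ℤ} {q : Pt} {r e : ℕ} {ω : Conf}
    (hω : ω ∈ DD T.V) (hx : (16 * r : ℤ) ≤ |q.1 - xS|) (ht : TouchIn T xS q r e ω)
    (hR : 1 ≤ R) : r ≤ R := by
  obtain ⟨v, hv, hvr, ⟨y, hy⟩, _⟩ := ht
  have hvV := L.mem_V_of_ne hω hv
  have hyV : (xS, y) ∈ T.V := L.comp_subset_V hω hvV hy
  have h1 := mem_box_coord.1 (mem_V_box hfit hvV)
  have h2 := mem_box_coord.1 (mem_V_box hfit hyV)
  have h3 := (T802.dn_le_iff (p := q) (x := v) (r := r)).1 hvr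
  simp only at h1 h2
  push_cast at h1 h2
  rw [le_abs] at hx
  omega

/-- **TOUCHP** -/
theorem touchp (hL : LassoP) (hone : OneStep) : TOUCHP := by
  classical
  intro c ε hc hε K
  obtain ⟨δ, hδ⟩ : ∃ δ : ℝ, δ = c / (16 * (K + 1)) := ⟨_, rfl⟩
  have hK0 : (0 : ℝ) < K + 1 := by positivity
  have hδ0 : 0 < δ := by rw [hδ]; positivity
  have hε' : 0 < ε / (K + 1) := by positivity
  choose! F hF G hG using fun (d : ℝ) (hd : 0 < d) => hone c δ d (ε / (K + 1)) hc hδ0 hd hε'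
  -- the scales
  obtain ⟨d, hd0, hds⟩ : ∃ d : ℕ → ℝ, d 0 = 1 ∧ ∀ k, d (k + 1) = min (d k) (F (d k) / 4) :=
    ⟨fun k => Nat.rec 1 (fun _ x => min x (F x / 4)) k, rfl, fun _ => rfl⟩
  have hdpos : ∀ k, 0 < d k := by
    intro k
    induction k with
    | zero => rw [hd0]; exact one_pos
    | succ k ih => rw [hds]; exact lt_min ih (by have := hF _ ih; positivity)
  have hdle : ∀ k, d (k + 1) ≤ d k := fun k => by rw [hds]; exact min_le_left _ _
  have hdF : ∀ k, 4 * d (k + 1) ≤ F (d k) := fun k => by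
    have : d (k + 1) ≤ F (d k) / 4 := by rw [hds]; exact min_le_right _ _
    linarith
  have hanti : Antitone d := antitone_nat_of_succ_le hdle
  obtain ⟨η, hη⟩ : ∃ η : ℝ, η = min (c / 8) (d (K + 1)) := ⟨_, rfl⟩
  have hη0 : 0 < η := by rw [hη]; exact lt_min (by positivity) (hdpos _)
  have hηc : η ≤ c / 8 := by rw [hη]; exact min_le_left _ _
  have hηF : ∀ k < K, η ≤ F (d k) := by
    intro k hk
    have h1 : η ≤ d (K + 1) := by rw [hη]; exact min_le_right _ _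
    have h2 : d (K + 1) ≤ d (k + 1) := hanti (by omega)
    have h3 := hdF k
    have h4 := hdpos (k + 1)
    linarith
  -- large `R`
  obtain ⟨R0, hR0⟩ : ∃ R0 : ℕ, ∀ R : ℕ, R0 ≤ R → 1 ≤ R ∧ (∀ k ∈ Finset.range (K + 1), G (d k) ≤ R ∧
      8 ≤ F (d k) * R) ∧ 8 ≤ δ * R ∧ (2 * K + 12 : ℝ) ≤ 3 / 4 * (c * R) := by
    have e1 : ∀ x : ℝ, 0 < x → ∀ y : ℝ, ∀ᶠ R : ℕ in atTop, y ≤ x * R := by
      intro x hx y
      have := (tendsto_natCast_atTop_atTop (R := ℝ)).const_mul_atTop hx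
      exact this.eventually_ge_atTop y
    have e2 : ∀ᶠ R : ℕ in atTop, 1 ≤ R ∧ (∀ k ∈ Finset.range (K + 1), G (d k) ≤ R ∧
      8 ≤ F (d k) * R) ∧ 8 ≤ δ * R ∧ (2 * K + 12 : ℝ) ≤ 3 / 4 * (c * R) := by
      refine (eventually_ge_atTop 1).and (((Finset.range (K + 1)).eventually_all.2 fun k _ => ?_).and
        ((e1 δ hδ0 8).and ?_))
      · exact (eventually_ge_atTop (G (d k))).and (e1 _ (hF _ (hdpos k)) 8)
      · have := e1 (3 / 4 * c) (by positivity) (2 * K + 12)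
        exact this.mono fun R h => by rw [← mul_assoc]; exact h
    exact eventually_atTop.1 e2
  refine ⟨η, hη0, R0, ?_⟩
  intro R hR T hfit xS q r hcr hx
  obtain ⟨hR1, hRk, hRδ, hRc⟩ := hR0 R hR
  have hRr : (1 : ℝ) ≤ R := by exact_mod_cast hR1
  have hcR : 0 < c * R := by positivity
  have hr1 : 1 ≤ r := by
    have : (0 : ℝ) < r := by linarith
    exact_mod_cast this
  by_cases hrR : r ≤ R
  swap
  · -- the event is empty
    have : Pr T.V (fun ω => TouchIn T xS q r ⌊η * R⌋₊ ω ∧ NX ω q (2 * r) (4 * r) ≤ K) ≤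
        Pr T.V (fun _ => False) :=
      E.Pr_mono fun ω hω h => hrR (r_le_R hfit hω hx h.1 hR1)
    refine this.trans ?_
    have : Pr T.V (fun _ => False) = 0 := by
      rw [E.Pr_eq_avg]
      simp [avg]
    rw [this]
    exact hε.le
  -- the boxes
  obtain ⟨b, hb⟩ : ∃ b : ℕ, b = ⌈δ * R⌉₊ := ⟨_, rfl⟩
  have hb1 : δ * R ≤ b := by rw [hb]; exact Nat.le_ceil _
  have hb2 : (b : ℝ) ≤ δ * R + 1 := by rw [hb]; exact (Nat.ceil_lt_add_one (by positivity)).le
  have hb8 : 8 ≤ b := by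
    have : (8 : ℝ) ≤ b := hRδ.trans hb1
    exact_mod_cast this
  obtain ⟨e, he⟩ : ∃ e : ℕ, e = ⌊η * R⌋₊ := ⟨_, rfl⟩
  have he1 : (e : ℝ) ≤ c / 8 * R := by
    rw [he]
    exact (Nat.floor_le (by positivity)).trans (mul_le_mul_of_nonneg_right hηc (by positivity))
  rw [← he]
  have hgeo : (2 * K + 1) * b + 6 + e ≤ r := by
    have h1 : (2 * K + 1 : ℝ) * b ≤ (2 * K + 2) * (δ * R + 1) := by
      have h2 : (0 : ℝ) ≤ K := Nat.cast_nonneg _
      have h3 : (0 : ℝ) ≤ b := Nat.cast_nonneg _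
      calc (2 * K + 1 : ℝ) * b ≤ (2 * K + 2) * b := by nlinarith
        _ ≤ _ := mul_le_mul_of_nonneg_left hb2 (by positivity)
    have h2 : (2 * K + 2 : ℝ) * (δ * R + 1) = c * R / 8 + (2 * K + 2) := by
      rw [hδ]
      field_simp
      ring
    have h3 : (2 * K + 1 : ℝ) * b + 6 + e ≤ r := by
      rw [h2] at h1
      nlinarith
    exact_mod_cast h3
  set rs : ℕ → ℕ := fun k => 2 * r - 3 - 2 * (b * k) with hrs
  set rt : ℕ → ℕ := fun k => 2 * r - 3 - 2 * (b * k) - b with hrt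
  have hbK : (2 * K + 1) * b = 2 * (b * K) + b := by ring
  rw [hbK] at hgeo
  have hbk : ∀ k ≤ K, b * k ≤ b * K := fun k hk => Nat.mul_le_mul_left b hk
  -- the inclusion of events
  have hincl : ∀ ω ∈ DD T.V, (TouchIn T xS q r e ω ∧ NX ω q (2 * r) (4 * r) ≤ K) →
      ∃ k ∈ Finset.range K, SepN T xS ω q r k (rs k) ⌊d k * R⌋₊ ∧
        TouN T xS ω q r k (rt k) ⌊F (d k) * R⌋₊ := by
    rintro ω hω ⟨ht, hN⟩
    obtain ⟨k, hk, hk2⟩ := (walk hω xS).touch hω (r' := r + e) (h := e) hr1 hx le_rfl (by omega)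
      le_rfl ht hN
    have hk3 : TouN T xS ω q r k (rt k) ⌊F (d k) * R⌋₊ := by
      refine Touching.mono ?_ ?_ hk2
      · have := hbk k hk.le
        simp only [hrt]
        omega
      · rw [he]
        exact Nat.floor_mono (mul_le_mul_of_nonneg_right (hηF k hk) (by positivity))
    obtain ⟨k', hk', h1, h2⟩ := first_touch hL hω hr1 hx (rs := rs) (rt := rt)
      (ds := fun k => ⌊d k * R⌋₊) (hs := fun k => ⌊F (d k) * R⌋₊) (K := K)
      (fun k _ => by simp only [hrs]; omega)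
      (fun k hk => by
        have h1 : b * (k + 1) = b * k + b := by ring
        simp only [hrs]
        omega)
      (fun k hk => Nat.floor_mono (mul_le_mul_of_nonneg_right (hdle k) (by positivity)))
      (fun k hk => by
        have h1 : b * (k + 1) = b * k + b := by ring
        have h2 := hbk (k + 1) hk.le
        simp only [hrs, hrt]
        omega)
      (fun k hk => by
        have h1 := (hRk k (Finset.mem_range.2 (by omega))).2
        have h2 := hdF k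
        have h3 : ((⌊d (k + 1) * R⌋₊ : ℕ) : ℝ) ≤ d (k + 1) * R :=
          Nat.floor_le (by have := hdpos (k + 1); positivity)
        apply Nat.le_floor
        push_cast
        have h4 : 4 * (d (k + 1) * R) ≤ F (d k) * R := by
          have := mul_le_mul_of_nonneg_right h2 (by positivity : (0 : ℝ) ≤ R)
          linarith
        linarith)
      ⟨k, hk, hk3⟩
    exact ⟨k', Finset.mem_range.2 hk', h1, h2⟩
  refine (E.Pr_mono hincl).trans ?_
  refine (E.Pr_exists_le_card T.V (Finset.range K) (fun k ω => SepN T xS ω q r k (rs k) ⌊d k * R⌋₊ ∧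
    TouN T xS ω q r k (rt k) ⌊F (d k) * R⌋₊) (b := ε / (K + 1)) ?_).trans ?_
  · intro k hk
    rw [Finset.mem_range] at hk
    have h1 := hbk k hk.le
    refine hG (d k) (hdpos k) R (hRk k (Finset.mem_range.2 (by omega))).1 T hfit xS q r (rs k) (rt k)
      k hcr hrR hx ?_ ?_ ?_
    · simp only [hrt]
      omega
    · have h2 : rt k + b = rs k := by
        simp only [hrs, hrt]
        omega
      have h3 : (rs k : ℝ) = rt k + b := by rw [← h2]; push_cast; ring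
      rw [h3]
      linarith
    · simp only [hrs]
      omega
  · rw [Finset.card_range]
    have h1 : (K : ℝ) * (ε / (K + 1)) = ε * (K / (K + 1)) := by ring
    rw [h1]
    have h2 : (K : ℝ) / (K + 1) ≤ 1 := by
      rw [div_le_one hK0]
      linarith
    nlinarith

end Vale.Agent.P155.NT802
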