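import Vale.Agent.P155.NT733.Chain
import Vale.Agent.P155.NT814.Ring
import Vale.Agent.P155.NT802.Sep

/-!
# P155, NT: chains which cross every ring the right number of times
-/

namespace Vale.Agent.P155.NT802

open Vale.Agent.P155 T802 NT NT733 Finset

/-- value of the edge set `(a, b)` on the edge `{u, u'}` -/
noncomputable def ev (a b : Pt → ZMod 2) (u u' : Pt) : ZMod 2 :=
  if u.2 = u'.2 then b (min u.1 u'.1, u.2) else a (u.1, min u.2 u'.2)

theorem ev_add (a b a' b' : Pt → ZMod 2) (u u' : Pt) :
    ev (fun v => a v + a' v) (fun v => b v + b' v) u u' = ev a b u u' + ev a' b' u u' := by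
  unfold ev
  split_ifs <;> rfl

theorem ev_zero (u u' : Pt) : ev (fun _ => 0) (fun _ => 0) u u' = 0 := by
  unfold ev
  split_ifs <;> rfl

/-- the edges of a chain satisfy `P` -/
theorem ev_P {P : Pt → Pt → Prop} {x y : Pt} {a b : Pt → ZMod 2} (h : Chain P x y a b) {u u' : Pt}
    (hu : Adj u u') (hne : ev a b u u' ≠ 0) : P u u' ∨ P u' u := by
  rw [NT.adj_iff'] at hu
  obtain ⟨p, q⟩ := u
  obtain ⟨p', q'⟩ := u'
  unfold ev at hne
  simp only at hu hne
  split_ifs at hne with h1
  · subst h1
    have h2 := h.bv _ hne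
    simp only at h2
    rcases hu with ⟨_, h3⟩ | ⟨_, h3 | h3⟩
    · omega
    · rw [min_eq_right (by omega)] at h2
      right
      rw [← h3] at h2
      exact h2
    · rw [min_eq_left (by omega)] at h2
      left
      rw [← h3] at h2
      exact h2
  · have h2 := h.av _ hne
    simp only at h2
    rcases hu with ⟨h4, h3 | h3⟩ | ⟨h3, _⟩
    · rw [min_eq_right (by omega)] at h2
      right
      rw [← h3] at h2
      rw [← h4]
      exact h2
    · rw [min_eq_left (by omega)] at h2
      left
      rw [← h3] at h2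
      rw [← h4]
      exact h2
    · exact absurd h3 h1

theorem ev_edge {p q u u' : Pt} (hu : Adj u u') : ev (ea p q) (eb p q) u u' =
    ind ((p = u ∧ q = u') ∨ (p = u' ∧ q = u)) := by
  rw [NT.adj_iff'] at hu
  unfold ev
  rw [ea_eq, eb_eq]
  obtain ⟨x, z⟩ := u
  obtain ⟨x', z'⟩ := u'
  obtain ⟨p1, p2⟩ := p
  obtain ⟨q1, q2⟩ := q
  simp only at hu ⊢
  simp only [Prod.mk.injEq]
  split_ifs with h1
  · apply ind_congr
    rcases le_total x x' with h | h
    · rw [min_eq_left h]; constructor <;> intro h5 <;> omega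
    · rw [min_eq_right h]; constructor <;> intro h5 <;> omega
  · apply ind_congr
    rcases le_total z z' with h | h
    · rw [min_eq_left h]; constructor <;> intro h5 <;> omega
    · rw [min_eq_right h]; constructor <;> intro h5 <;> omega

/-- inner and outer end are adjacent -/
theorem wiwo_adj {z : Pt} {s : ℕ} {t : ℤ} (_h0 : 0 ≤ t) (_h1 : t < 8 * s) :
    Adj (wi z s t) (wo z s t) := by
  rw [NT.adj_iff']
  unfold wi wo
  split_ifs <;> dsimp only <;> omega

theorem wi_dn {z : Pt} {s : ℕ} {t : ℤ} (h0 : 0 ≤ t) (h1 : t < 8 * s) :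
    s ≤ dn z (wi z s t) + 1 ∧ dn z (wi z s t) ≤ s := by
  have h := H904.dn_spec z (wi z s t)
  revert h
  unfold wi
  split_ifs <;> dsimp only <;> omega

theorem wo_dn {z : Pt} {s : ℕ} {t : ℤ} (h0 : 0 ≤ t) (h1 : t < 8 * s) :
    s ≤ dn z (wo z s t) ∧ dn z (wo z s t) ≤ s + 1 := by
  have h := H904.dn_spec z (wo z s t)
  revert h
  unfold wo
  split_ifs <;> dsimp only <;> omega

/-- the parity flips along the ring at the edges of the even set -/
theorem ring_flip {a b : Pt → ZMod 2} (h : EvenSet a b) {z : Pt} {s t : ℕ} (ht : t < 8 * s) :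
    par a (R z s t) + par a (R z s (t + 1)) = ev a b (wi z s t) (wo z s t) := by
  have hs : 1 ≤ s := by omega
  have e1 : R z s t = rp z s t := by
    unfold R
    rw [Nat.mod_eq_of_lt ht]
  have e2 : R z s (t + 1) = rp z s (t + 1) := by
    rw [R_succ hs, Nat.mod_eq_of_lt ht]
  rw [e1, e2]
  have key : ∀ p q r : ZMod 2, q = p + r → p + q = r := by decide
  have key' : ∀ p q r : ZMod 2, p = q + r → p + q = r := by decide
  unfold ev
  by_cases h1 : (t : ℤ) < 2 * s
  · have a1 : rp z s t = (z.1 + s, z.2 - s + t) := by unfold rp; rw [if_pos h1]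
    have a2 : rp z s (t + 1) = (z.1 + s, z.2 - s + t + 1) := by
      unfold rp
      split_ifs <;> refine Prod.ext ?_ ?_ <;> dsimp only <;> omega
    have a3 : wi z s t = (z.1 + s, z.2 - s + t + 1) := by unfold wi; rw [if_pos h1]
    have a4 : wo z s t = (z.1 + s + 1, z.2 - s + t + 1) := by unfold wo; rw [if_pos h1]
    rw [a1, a2, a3, a4]
    simp only [if_true]
    rw [min_eq_left (by omega)]
    apply key
    have := par_up h (z.1 + s) (z.2 - s + t + 1)
    rwa [add_sub_cancel_right] at this
  · by_cases h2 : (t : ℤ) < 4 * s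
    · have a1 : rp z s t = (z.1 + 3 * s - t, z.2 + s) := by unfold rp; rw [if_neg h1, if_pos h2]
      have a2 : rp z s (t + 1) = (z.1 + 3 * s - t - 1, z.2 + s) := by
        unfold rp
        split_ifs <;> refine Prod.ext ?_ ?_ <;> dsimp only <;> omega
      have a3 : wi z s t = (z.1 + 3 * s - t, z.2 + s) := by unfold wi; rw [if_neg h1, if_pos h2]
      have a4 : wo z s t = (z.1 + 3 * s - t, z.2 + s + 1) := by
        unfold wo; rw [if_neg h1, if_pos h2]
      rw [a1, a2, a3, a4]
      simp only
      rw [if_neg (by omega), min_eq_left (by omega)]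
      apply key'
      exact par_right h (z.1 + 3 * s - t) (z.2 + s)
    · by_cases h3 : (t : ℤ) < 6 * s
      · have a1 : rp z s t = (z.1 - s, z.2 + 5 * s - t) := by
          unfold rp; rw [if_neg h1, if_neg h2, if_pos h3]
        have a2 : rp z s (t + 1) = (z.1 - s, z.2 + 5 * s - t - 1) := by
          unfold rp
          split_ifs <;> refine Prod.ext ?_ ?_ <;> dsimp only <;> omega
        have a3 : wi z s t = (z.1 - s + 1, z.2 + 5 * s - t) := by
          unfold wi; rw [if_neg h1, if_neg h2, if_pos h3]
        have a4 : wo z s t = (z.1 - s, z.2 + 5 * s - t) := by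
          unfold wo; rw [if_neg h1, if_neg h2, if_pos h3]
        rw [a1, a2, a3, a4]
        simp only [if_true]
        rw [min_eq_right (by omega)]
        apply key'
        exact par_up h (z.1 - s) (z.2 + 5 * s - t)
      · have a1 : rp z s t = (z.1 - 7 * s + t, z.2 - s) := by
          unfold rp; rw [if_neg h1, if_neg h2, if_neg h3]
        have a2 : rp z s (t + 1) = (z.1 - 7 * s + t + 1, z.2 - s) := by
          unfold rp
          split_ifs <;> refine Prod.ext ?_ ?_ <;> dsimp only <;> omega
        have a3 : wi z s t = (z.1 - 7 * s + t + 1, z.2 - s + 1) := by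
          unfold wi; rw [if_neg h1, if_neg h2, if_neg h3]
        have a4 : wo z s t = (z.1 - 7 * s + t + 1, z.2 - s) := by
          unfold wo; rw [if_neg h1, if_neg h2, if_neg h3]
        rw [a1, a2, a3, a4]
        simp only
        rw [if_neg (by omega), min_eq_right (by omega)]
        apply key
        have := par_right h (z.1 - 7 * s + t + 1) (z.2 - s)
        rwa [add_sub_cancel_right] at this

/-- crossings of the rings -/
def RS (a b : Pt → ZMod 2) (x y : Pt) : Prop :=
  ∀ (z : Pt) (s : ℕ), ∑ t ∈ range (8 * s), ev a b (wi z s t) (wo z s t) =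
    ind (Win z s x) + ind (Win z s y)

/-- joined by a chain which crosses every ring the right number of times -/
def RLinked (P : Pt → Pt → Prop) (x y : Pt) : Prop := ∃ a b, Chain P x y a b ∧ RS a b x y

variable {P Q : Pt → Pt → Prop} {x y z : Pt}

theorem RLinked.refl (P : Pt → Pt → Prop) (x : Pt) : RLinked P x x := by
  refine ⟨_, _, Chain.zero P x, fun z s => ?_⟩
  rw [z2 (ind _)]
  apply sum_eq_zero
  intro t _
  exact ev_zero _ _

theorem RLinked.linked (h : RLinked P x y) : Linked P x y := by
  obtain ⟨a, b, h1, _⟩ := h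
  exact ⟨a, b, h1⟩

theorem RLinked.trans (h : RLinked P x y) (h' : RLinked P y z) : RLinked P x z := by
  obtain ⟨a, b, h1, h2⟩ := h
  obtain ⟨a', b', h3, h4⟩ := h'
  refine ⟨_, _, h1.add h3, fun w s => ?_⟩
  simp only [ev_add, sum_add_distrib]
  rw [h2 w s, h4 w s]
  have : ∀ p q r : ZMod 2, p + q + (q + r) = p + r := by decide
  exact this _ _ _

theorem RLinked.mono (h : RLinked P x y) (hPQ : ∀ u w, P u w → Q u w) : RLinked Q x y := by
  obtain ⟨a, b, h1, h2⟩ := h
  exact ⟨a, b, h1.mono hPQ, h2⟩

theorem edge_RS {p q : Pt} (h : Adj p q) : RS (ea p q) (eb p q) p q := by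
  intro z s
  rcases Nat.eq_zero_or_pos s with hs | hs
  · subst hs
    have : ∀ u : Pt, ¬ Win z ((0 : ℕ) : ℤ) u := by
      intro u hu
      unfold Win at hu
      push_cast at hu
      omega
    rw [ind_false (this p), ind_false (this q)]
    simp
  have he : ∀ t ∈ range (8 * s), ev (ea p q) (eb p q) (wi z s t) (wo z s t) =
      ind ((p = wi z s t ∧ q = wo z s t) ∨ (p = wo z s t ∧ q = wi z s t)) := by
    intro t ht
    rw [mem_range] at ht
    exact ev_edge (wiwo_adj (by positivity) (by exact_mod_cast ht))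
  rw [sum_congr rfl he]
  have hin : ∀ t ∈ range (8 * s), Win z s (wi z s t) ∧ ¬ Win z s (wo z s t) := by
    intro t ht
    rw [mem_range] at ht
    exact ⟨wi_win (by positivity) (by exact_mod_cast ht),
      wo_win (by positivity) (by exact_mod_cast ht)⟩
  -- one end inside
  have key : ∀ u u' : Pt, Adj u u' → Win z s u → ¬ Win z s u' →
      ∑ t ∈ range (8 * s), ind ((u = wi z s t ∧ u' = wo z s t) ∨ (u = wo z s t ∧ u' = wi z s t)) =
        1 := by
    intro u u' hA hw hw'
    obtain ⟨t, ht0, ht1, htu, htu'⟩ := exists_t hw hw' hA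
    obtain ⟨t, rfl⟩ := Int.eq_ofNat_of_zero_le ht0
    have ht : t < 8 * s := by exact_mod_cast ht1
    rw [sum_eq_single t]
    · exact ind_true (Or.inl ⟨htu, htu'⟩)
    · intro t' ht' hne
      apply ind_false
      rintro (⟨h3, h4⟩ | ⟨h3, _⟩)
      · apply hne
        rw [mem_range] at ht'
        have := wiwo_inj (z := z) (s := s) (t := t) (t' := t') (by positivity)
          (by exact_mod_cast ht) (by positivity) (by exact_mod_cast ht')
          (htu.symm.trans h3) (htu'.symm.trans h4)
        exact_mod_cast this.symm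
      · exact (hin t' ht').2 (h3 ▸ hw)
    · intro h
      exact absurd (mem_range.2 ht) h
  by_cases h1 : Win z s p <;> by_cases h2 : Win z s q
  · rw [ind_true h1, ind_true h2]
    rw [show (1 : ZMod 2) + 1 = 0 from by decide]
    apply sum_eq_zero
    intro t ht
    apply ind_false
    rintro (⟨_, h4⟩ | ⟨h4, _⟩)
    · exact (hin t ht).2 (h4 ▸ h2)
    · exact (hin t ht).2 (h4 ▸ h1)
  · rw [ind_true h1, ind_false h2, add_zero]
    exact key p q h h1 h2
  · rw [ind_false h1, ind_true h2, zero_add]
    rw [← key q p (L.adj_symm h) h2 h1]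
    apply sum_congr rfl
    intro t _
    exact ind_congr (by tauto)
  · rw [ind_false h1, ind_false h2, add_zero]
    apply sum_eq_zero
    intro t ht
    apply ind_false
    rintro (⟨h4, _⟩ | ⟨_, h4⟩)
    · exact h1 (h4 ▸ (hin t ht).1)
    · exact h2 (h4 ▸ (hin t ht).1)

theorem RLinked.edge {p q : Pt} (h : Adj p q) (hP : P p q) (hP' : P q p) : RLinked P p q :=
  ⟨_, _, Chain.edge h hP hP', edge_RS h⟩

/-- a connection is a chain inside the component -/
theorem rlinked_of_conn {S : Set Pt} {f f' : Pt} (h : Conn S f f') :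
    RLinked (fun u w => Conn S f u ∧ Conn S f w) f f' := by
  obtain ⟨h1, h2⟩ := h
  induction h2 with
  | refl => exact RLinked.refl _ _
  | @tail b c hb hc ih =>
    have hb' : Conn S f b := ⟨h1, hb⟩
    have hc' : Conn S f c := ⟨h1, hb.tail hc⟩
    exact ih.trans (RLinked.edge hc.1 ⟨hb', hc'⟩ ⟨hc', hb'⟩)

/-- the chain of a path crosses every ring the right number of times -/
theorem path_RS {v : ℕ → Pt} {M : ℕ} (hadj : ∀ i < M, Adj (v i) (v (i + 1))) :
    RS (pathA v M) (pathB v M) (v 0) (v M) := by
  induction M with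
  | zero =>
    intro z s
    rw [z2 (ind _)]
    apply sum_eq_zero
    intro t _
    unfold ev pathA pathB
    simp
  | succ M ih =>
    intro z s
    have h1 := ih (fun i hi => hadj i (by omega)) z s
    have h2 := edge_RS (hadj M (by omega)) z s
    have e : ∀ u u' : Pt, ev (pathA v (M + 1)) (pathB v (M + 1)) u u' =
        ev (pathA v M) (pathB v M) u u' + ev (ea (v M) (v (M + 1))) (eb (v M) (v (M + 1))) u u' := by
      intro u u'
      rw [← ev_add]
      congr 1 <;> · funext w; simp [pathA, pathB, sum_range_succ]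
    simp only [e, sum_add_distrib]
    rw [h1, h2]
    have : ∀ p q r : ZMod 2, p + q + (q + r) = p + r := by decide
    exact this _ _ _

end Vale.Agent.P155.NT802
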