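import Vale.Agent.P155.NT276.Pigeon

/-!
# P155, NT: a glued piece which is not near the polygon has a glued crossing of a small annulus
which is far from the polygon
-/

namespace Vale.Agent.P155.NT802

open Vale.Agent.P155 T802 T905 J Finset NT Function Skel NT276

/-- a piece of a loop of extent `≥ l` stays within `h` of the complement of the polygon (the event
of `NT878.BDrun`) -/
def BDev (T : Temp) (ω : Conf) (h l : ℕ) : Prop :=
  ∃ v m, ω.1 v ≠ ω.2 v ∧ (∀ j ≤ m, ∃ f ∉ T.faceSet, dn f ((SW.suc ω)^[j] v) ≤ h) ∧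
    ∃ i ≤ m, ∃ j ≤ m, l ≤ dn ((SW.suc ω)^[i] v) ((SW.suc ω)^[j] v)

section

variable {V : Finset Pt} {xS : ℤ} {ω : Conf} {tm : ℕ → ℤ × ℕ} {M : ℕ} {q : Pt} {r : ℕ}

/-- a time interval inside an excursion is a piece of a loop, in one of the two directions -/
theorem Walk.piece (W : Walk V xS ω tm M) (hω : ω ∈ DD V) (hr : 1 ≤ r)
    (hx : (16 * r : ℤ) ≤ |q.1 - xS|) {k n1 n2 : ℕ} (h1 : eK xS ω tm M q r k ≤ n1) (h12 : n1 ≤ n2)
    (h2 : n2 < xK xS ω tm M q r (k + 1)) :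
    ∃ v, ω.1 v ≠ ω.2 v ∧ ((∀ j ≤ n2 - n1, pt' xS ω (tm (n1 + j)) = (SW.suc ω)^[j] v) ∨
      (∀ j ≤ n2 - n1, pt' xS ω (tm (n2 - j)) = (SW.suc ω)^[j] v)) := by
  have hM : xK xS ω tm M q r (k + 1) ≤ M := exi_le _
  have hk : eK xS ω tm M q r k < M := by omega
  have hne := W.ne_exc hω hr hx hk
  obtain ⟨n0, hn0, hrun⟩ := W.pos (n := n2) (by omega)
  obtain ⟨hsV, _, hi⟩ := W.valid n2 (by omega)
  generalize ht : (tm n2).1 = t at *
  -- the start of the loop is before the excursion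
  have hge : n0 < eK xS ω tm M q r k := by
    by_contra hc
    have h4 := (hrun 0 (by omega)).2
    rw [add_zero] at h4
    exact W.start_out (r := r) (q := q) hr hx (n0 := n0) (t := 0) (k := k) (y := t) h4 rfl
      (by omega) (by omega)
  have hlen : n2 - n0 < (comp ω (xS, t)).ncard := by omega
  have hall : ∀ n, n0 ≤ n → n ≤ n2 → pt' xS ω (tm n) = go ω (xS, t) (n - n0) := by
    intro n a1 a2
    have := (hrun (n - n0) (by omega)).2
    rw [show n0 + (n - n0) = n by omega] at this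
    unfold pt'
    rw [this]
  have htk : (tm (eK xS ω tm M q r k)).1 = t := by
    have := (hrun (eK xS ω tm M q r k - n0) (by omega)).2
    rw [show n0 + (eK xS ω tm M q r k - n0) = eK xS ω tm M q r k by omega] at this
    rw [this]
  rw [htk] at hne
  have hneI : ∀ j, ω.1 ((SW.suc ω)^[j] (xS, t)) ≠ ω.2 ((SW.suc ω)^[j] (xS, t)) := by
    intro j
    exact L.ne_of_mem_comp hω hne (Q1.iter_comp ω _ _)
  rcases go_cases hω hsV with hg | hg
  · refine ⟨(SW.suc ω)^[n1 - n0] (xS, t), hneI _, Or.inl ?_⟩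
    intro j hj
    rw [hall _ (by omega) (by omega), hg, ← iterate_add_apply]
    congr 1
    omega
  · refine ⟨(SW.suc ω)^[(comp ω (xS, t)).ncard - (n2 - n0)] (xS, t), hneI _, Or.inr ?_⟩
    intro j hj
    rw [hall _ (by omega) (by omega), hg _ (by omega), ← iterate_add_apply]
    congr 1
    omega

end

/-- the grid point next to `v` -/
theorem grid_near (v : Pt) {μ : ℕ} (hμ : 1 ≤ μ) : ∃ a b : ℤ, dn (μ * a, μ * b) v ≤ μ := by
  refine ⟨v.1 / μ, v.2 / μ, ?_⟩
  have h0 : (0 : ℤ) < μ := by exact_mod_cast hμ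
  have h1 := Int.emod_nonneg v.1 h0.ne'
  have h2 := Int.emod_lt_of_pos v.1 h0
  have h3 := Int.emod_nonneg v.2 h0.ne'
  have h4 := Int.emod_lt_of_pos v.2 h0
  have h5 := Int.mul_ediv_add_emod v.1 μ
  have h6 := Int.mul_ediv_add_emod v.2 μ
  rw [T802.dn_le_iff]
  simp only
  omega

/-- **a glued piece of extent `l`**, if no piece of a loop of extent `l` stays within `h0` of the
polygon: a glued piece starts in `box y μ`, leaves `box y ρ`, and `y` is at distance `> h0 - μ` of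
the polygon. -/
theorem glued_sub {T : Temp} {xS : ℤ} {ω : Conf} {q : Pt} {r k r2 h l : ℕ} (hω : ω ∈ DD T.V)
    (hr : 1 ≤ r) (hx : (16 * r : ℤ) ≤ |q.1 - xS|) (hG : Glued T xS ω q r k r2 h l) {h0 μ ρ : ℕ}
    (hB : ¬ BDev T ω h0 l) (hμ : 1 ≤ μ) (hl : 2 * (ρ + μ) < l) :
    ∃ (a b : ℤ) (n3 n4 : ℕ), eN T xS ω q r k ≤ n3 ∧ n3 < xN T xS ω q r k ∧
      eN T xS ω q r k ≤ n4 ∧ n4 < xN T xS ω q r k ∧
      (∀ n, min n3 n4 ≤ n → n ≤ max n3 n4 → gN T xS ω n ∈ box q r2 ∧ NT276.Near T xS ω q r k h n) ∧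
      dn (μ * a, μ * b) (gN T xS ω n3) ≤ μ ∧ ρ < dn (μ * a, μ * b) (gN T xS ω n4) ∧
      ∀ f ∉ T.faceSet, h0 < dn f (μ * a, μ * b) + μ := by
  obtain ⟨n1, n2, e1, e12, e2, e3, e4⟩ := hG
  have W := walk hω xS
  -- a point of the piece far from the polygon
  obtain ⟨n, hn1, hn2, hn⟩ : ∃ n, n1 ≤ n ∧ n ≤ n2 ∧ ∀ f ∉ T.faceSet, h0 < dn f (gN T xS ω n) := by
    by_contra hc
    push Not at hc
    apply hB
    obtain ⟨v, hv, hv2⟩ := W.piece hω hr hx (k := k) e1 e12 e2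
    refine ⟨v, n2 - n1, hv, ?_, ?_⟩
    · intro j hj
      rcases hv2 with hv2 | hv2
      · rw [← hv2 j hj]
        exact hc (n1 + j) (by omega) (by omega)
      · rw [← hv2 j hj]
        exact hc (n2 - j) (by omega) (by omega)
    · rcases hv2 with hv2 | hv2
      · refine ⟨0, Nat.zero_le _, n2 - n1, le_rfl, ?_⟩
        rw [← hv2 0 (Nat.zero_le _), ← hv2 (n2 - n1) le_rfl, add_zero,
          show n1 + (n2 - n1) = n2 by omega]
        exact e4
      · refine ⟨n2 - n1, le_rfl, 0, Nat.zero_le _, ?_⟩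
        rw [← hv2 0 (Nat.zero_le _), ← hv2 (n2 - n1) le_rfl,
          show n2 - (n2 - n1) = n1 by omega, Nat.sub_zero]
        exact e4
  obtain ⟨a, b, hab⟩ := grid_near (gN T xS ω n) hμ
  -- one of the two ends is far from it
  obtain ⟨n4, h41, h42, h43⟩ : ∃ n4, n1 ≤ n4 ∧ n4 ≤ n2 ∧ ρ < dn (μ * a, μ * b) (gN T xS ω n4) := by
    by_contra hc
    push Not at hc
    have g1 := hc n1 le_rfl e12
    have g2 := hc n2 e12 le_rfl
    have g3 := H904.dn_tri (gN T xS ω n1) (μ * a, μ * b) (gN T xS ω n2)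
    rw [H904.dn_comm (gN T xS ω n1) (μ * a, μ * b)] at g3
    omega
  refine ⟨a, b, n, n4, by omega, by omega, by omega, by omega, ?_, hab, h43, ?_⟩
  · intro n' g1 g2
    apply e3 n'
    · have : n1 ≤ min n n4 := le_min hn1 h41
      omega
    · have : max n n4 ≤ n2 := max_le hn2 h42
      omega
  · intro f hf
    have g1 := hn f hf
    have g2 := H904.dn_tri f (μ * a, μ * b) (gN T xS ω n)
    omega

end Vale.Agent.P155.NT802
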