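import Vale.Agent.P155.NT802.Exc

/-!
# P155, NT, block E: the stopping times

`tj j` = height on the line `x = xS` of the lowest point of the `j`-th loop which meets
`box q r0` (`top` if there are fewer loops), `N` its length, `g` its path,
`eJ j k = (tj j, ent k)` the beginning of its `k`-th excursion, `tJ j k h` the first time of the
excursion at which the tip is in `box q r'`, at distance `≤ h` of the faces which were not free
at the beginning of the excursion (`exi (k + 1)` if this does not happen).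
-/

namespace Vale.Agent.P155.NT802

open Vale.Agent.P155 T802 T905 J Finset NT

/-- a new loop, which meets the box -/
def Hit (xS : ℤ) (q : Pt) (r0 : ℕ) (ω : Conf) (y : ℤ) : Prop :=
  (xS, y) ∉ Et xS ω y ∧ ω.1 (xS, y) ≠ ω.2 (xS, y) ∧ ∃ v ∈ comp ω (xS, y), v ∈ box q r0

/-- the starting point of the `j`-th loop on the line -/
noncomputable def tj (xS top : ℤ) (q : Pt) (r0 : ℕ) (ω : Conf) (j : ℕ) : ℤ :=
  sInf {y | (Hit xS q r0 ω y ∧ {y' | y' < y ∧ Hit xS q r0 ω y'}.ncard = j) ∨ top ≤ y}

/-- number of points of the `j`-th loop -/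
noncomputable def nj (xS top : ℤ) (q : Pt) (r0 : ℕ) (ω : Conf) (j : ℕ) : ℕ :=
  (comp ω (xS, tj xS top q r0 ω j)).ncard

/-- the path of the `j`-th loop -/
noncomputable def gj (xS top : ℤ) (q : Pt) (r0 : ℕ) (ω : Conf) (j : ℕ) : ℕ → Pt :=
  go ω (xS, tj xS top q r0 ω j)

/-- beginning of the excursion `k` of the loop `j` -/
noncomputable def ej (xS top : ℤ) (q : Pt) (r0 R : ℕ) (ω : Conf) (j k : ℕ) : ℕ :=
  ent (nj xS top q r0 ω j) (gj xS top q r0 ω j) q r0 R k

/-- end of the excursion `k - 1` of the loop `j` -/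
noncomputable def xj (xS top : ℤ) (q : Pt) (r0 R : ℕ) (ω : Conf) (j k : ℕ) : ℕ :=
  exi (nj xS top q r0 ω j) (gj xS top q r0 ω j) q r0 R k

/-- the explored set at the beginning of the excursion `k` of the loop `j` -/
noncomputable def EJ (xS top : ℤ) (q : Pt) (r0 R : ℕ) (ω : Conf) (j k : ℕ) : Set Pt :=
  Eti xS ω (tj xS top q r0 ω j) (ej xS top q r0 R ω j k)

/-- first touching time of the excursion `k` of the loop `j` -/
noncomputable def uj (T : Temp) (xS top : ℤ) (q : Pt) (r0 R r' h : ℕ) (ω : Conf) (j k : ℕ) : ℕ :=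
  fst (xj xS top q r0 R ω j (k + 1)) (fun i => gj xS top q r0 ω j i ∈ box q r' ∧
    ∃ a, a ∉ OE T (EJ xS top q r0 R ω j k) ∧ dn (gj xS top q r0 ω j i) a ≤ h)
    (ej xS top q r0 R ω j k)

end Vale.Agent.P155.NT802
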